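import Vale.Agent.P292.Defs

namespace Vale.Agent.P292

/-- A rational curve of degree `d` in the cone `Spec R` with values in the field `E`: a graded
homomorphism `R → E[s, t]`, multiplying degrees by `d`, which sends every point of the punctured
plane to a point different from the vertex. Lines are the curves of degree one, conics are the
curves of degree two. -/
structure IsCurve {R : Type*} [CommRing R] [Algebra ℂ R] (𝒜 : ℕ → Submodule ℂ R) (d : ℕ)
    {E : Type*} [Field E] [Algebra ℂ E] (φ : R →ₐ[ℂ] MvPolynomial (Fin 2) E) : Prop where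
  degree : ∀ k, ∀ r ∈ 𝒜 k, (φ r).IsHomogeneous (d * k)
  bpf : ∀ x : Fin 2 → E, x ≠ 0 → ∃ k, 0 < k ∧ ∃ r ∈ 𝒜 k, MvPolynomial.aeval x (φ r) ≠ 0

end Vale.Agent.P292
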