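import Mathlib
import Vale.Agent.P292.Bdl.B1

/-! Step 2: the two point function of conics and its differential are bounded at every
valuation. -/

namespace Vale.Agent.P292.LS

open MvPolynomial

section poly

variable {K : Type*} [Field K]

/-- the linear functional on `K[s,t]` with given values on monomials -/
noncomputable def lin (w : (Fin 2 →₀ ℕ) → K) : MvPolynomial (Fin 2) K →ₗ[K] K :=
  (basisMonomials (Fin 2) K).constr K w

lemma lin_monomial (w : (Fin 2 →₀ ℕ) → K) (m : Fin 2 →₀ ℕ) (c : K) :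
    lin w (monomial m c) = c * w m := by
  have h : monomial m c = c • basisMonomials (Fin 2) K m := by
    rw [coe_basisMonomials, smul_monomial, smul_eq_mul, mul_one]
  rw [h, map_smul, lin, Module.Basis.constr_basis, smul_eq_mul]

lemma lin_eq (w : (Fin 2 →₀ ℕ) → K) (f : MvPolynomial (Fin 2) K) :
    lin w f = ∑ m ∈ f.support, coeff m f * w m := by
  conv_lhs => rw [f.as_sum]
  rw [map_sum]
  exact Finset.sum_congr rfl fun m _ => lin_monomial w m _

lemma lin_mul (w : (Fin 2 →₀ ℕ) → K) (f g : MvPolynomial (Fin 2) K) :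
    lin w (f * g) = ∑ m ∈ f.support, ∑ m' ∈ g.support,
      coeff m f * coeff m' g * w (m + m') := by
  conv_lhs => rw [f.as_sum, g.as_sum]
  rw [Finset.sum_mul_sum, map_sum]
  refine Finset.sum_congr rfl fun m _ => ?_
  rw [map_sum]
  refine Finset.sum_congr rfl fun m' _ => ?_
  rw [monomial_mul, lin_monomial]

lemma lin_mul_sub (w : (Fin 2 →₀ ℕ) → K) (f g : MvPolynomial (Fin 2) K) :
    lin w (f * g) - lin w f * lin w g = ∑ m ∈ f.support, ∑ m' ∈ g.support,
      coeff m f * coeff m' g * (w (m + m') - w m * w m') := by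
  rw [lin_mul, lin_eq w f, lin_eq w g, Finset.sum_mul_sum, ← Finset.sum_sub_distrib]
  refine Finset.sum_congr rfl fun m _ => ?_
  rw [← Finset.sum_sub_distrib]
  refine Finset.sum_congr rfl fun m' _ => ?_
  ring

/-- polynomials whose coefficients lie in given additive subgroups -/
def coeffSubring (A : (Fin 2 →₀ ℕ) → AddSubgroup K) (h1 : 1 ∈ A 0)
    (hA : ∀ m m', ∀ a ∈ A m, ∀ a' ∈ A m', a * a' ∈ A (m + m')) :
    Subring (MvPolynomial (Fin 2) K) where
  carrier := {f | ∀ m, coeff m f ∈ A m}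
  mul_mem' := by
    intro f g hf hg m
    rw [coeff_mul]
    refine sum_mem fun x hx => ?_
    have := hA _ _ _ (hf x.1) _ (hg x.2)
    rwa [Finset.HasAntidiagonal.mem_antidiagonal.mp hx] at this
  one_mem' := by
    intro m
    rw [coeff_one]
    split_ifs with h
    · rw [← h]; exact h1
    · exact zero_mem _
  add_mem' := by
    intro f g hf hg m
    rw [coeff_add]
    exact add_mem (hf m) (hg m)
  zero_mem' := by
    intro m
    rw [coeff_zero]
    exact zero_mem _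
  neg_mem' := by
    intro f hf m
    rw [coeff_neg]
    exact neg_mem (hf m)

lemma mem_coeffSubring {A : (Fin 2 →₀ ℕ) → AddSubgroup K} {h1 : 1 ∈ A 0}
    {hA : ∀ m m', ∀ a ∈ A m, ∀ a' ∈ A m', a * a' ∈ A (m + m')} {f : MvPolynomial (Fin 2) K} :
    f ∈ coeffSubring A h1 hA ↔ ∀ m, coeff m f ∈ A m := Iff.rfl

end poly

section valuation

variable {K : Type*} [Field K] {Γ : Type*} [LinearOrderedCommGroupWithZero Γ]
  (v : Valuation K Γ)

lemma mul_lt_one_of_le_of_lt {a b : Γ} (ha : a ≤ 1) (hb : b < 1) : a * b < 1 :=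
  lt_of_le_of_lt (by simpa using mul_le_mul' ha le_rfl) hb

lemma mul_lt_one_of_lt_of_le {a b : Γ} (ha : a < 1) (hb : b ≤ 1) : a * b < 1 := by
  rw [mul_comm]; exact mul_lt_one_of_le_of_lt hb ha

/-- the weight of a monomial -/
noncomputable def wt (i j : Fin 2) (α β : ℕ) (γ : K) (m : Fin 2 →₀ ℕ) : K :=
  if α * m i = β * m j then γ ^ m j else 0

/-- coefficients for the first subring -/
def QA (i j : Fin 2) (α β : ℕ) (γ : K) (m : Fin 2 →₀ ℕ) : AddSubgroup K where
  carrier := {a | v a * v γ ^ m j ≤ 1 ∧ (α * m i < β * m j → v a * v γ ^ m j < 1)}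
  add_mem' := by
    rintro a b ⟨ha, ha'⟩ ⟨hb, hb'⟩
    have h : v (a + b) * v γ ^ m j ≤ max (v a * v γ ^ m j) (v b * v γ ^ m j) := by
      rcases le_total (v a) (v b) with h | h
      · exact le_trans (mul_le_mul' (le_trans (v.map_add a b) (max_le h le_rfl)) le_rfl)
          (le_max_right _ _)
      · exact le_trans (mul_le_mul' (le_trans (v.map_add a b) (max_le le_rfl h)) le_rfl)
          (le_max_left _ _)
    exact ⟨le_trans h (max_le ha hb), fun h' => lt_of_le_of_lt h (max_lt (ha' h') (hb' h'))⟩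
  zero_mem' := by simp
  neg_mem' := by
    rintro a ha
    simpa [Valuation.map_neg] using ha

lemma QA_mul (i j : Fin 2) (α β : ℕ) (γ : K) (m m' : Fin 2 →₀ ℕ) (a : K)
    (ha : a ∈ QA v i j α β γ m) (a' : K) (ha' : a' ∈ QA v i j α β γ m') :
    a * a' ∈ QA v i j α β γ (m + m') := by
  obtain ⟨ha1, ha2⟩ := ha
  obtain ⟨hb1, hb2⟩ := ha'
  have e : v (a * a') * v γ ^ (m + m') j = (v a * v γ ^ m j) * (v a' * v γ ^ m' j) := by
    rw [map_mul, Finsupp.add_apply, pow_add]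
    exact mul_mul_mul_comm _ _ _ _
  refine ⟨?_, fun h => ?_⟩
  · rw [e]
    exact mul_le_one' ha1 hb1
  · rw [e]
    rw [Finsupp.add_apply, Finsupp.add_apply, mul_add, mul_add] at h
    rcases lt_or_ge (α * m i) (β * m j) with h1 | h1
    · exact mul_lt_one_of_lt_of_le (ha2 h1) hb1
    · exact mul_lt_one_of_le_of_lt ha1 (hb2 (by omega))

/-- the first subring -/
def Q1 (i j : Fin 2) (α β : ℕ) (γ : K) : Subring (MvPolynomial (Fin 2) K) :=
  coeffSubring (QA v i j α β γ) (by constructor <;> simp) (QA_mul v i j α β γ)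

lemma mem_Q1 {i j : Fin 2} {α β : ℕ} {γ : K} {f : MvPolynomial (Fin 2) K} :
    f ∈ Q1 v i j α β γ ↔ ∀ m, v (coeff m f) * v γ ^ m j ≤ 1 ∧
      (α * m i < β * m j → v (coeff m f) * v γ ^ m j < 1) := Iff.rfl

lemma lin_le_one {i j : Fin 2} {α β : ℕ} {γ : K} {f : MvPolynomial (Fin 2) K}
    (hf : f ∈ Q1 v i j α β γ) : v (lin (wt i j α β γ) f) ≤ 1 := by
  rw [lin_eq]
  refine v.map_sum_le fun m _ => ?_
  rw [wt]
  split_ifs with h
  · rw [map_mul, map_pow]
    exact (hf m).1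
  · simp

lemma lin_mul_sub_lt {i j : Fin 2} {α β : ℕ} {γ : K} {f g : MvPolynomial (Fin 2) K}
    (hf : f ∈ Q1 v i j α β γ) (hg : g ∈ Q1 v i j α β γ) :
    v (lin (wt i j α β γ) (f * g) - lin (wt i j α β γ) f * lin (wt i j α β γ) g) < 1 := by
  rw [lin_mul_sub]
  refine v.map_sum_lt one_ne_zero fun m _ => v.map_sum_lt one_ne_zero fun m' _ => ?_
  obtain ⟨ha1, ha2⟩ := hf m
  obtain ⟨hb1, hb2⟩ := hg m'
  have hz : v (0 : K) < 1 := by rw [map_zero]; exact zero_lt_one
  rw [wt, wt, wt]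
  simp only [Finsupp.add_apply, mul_add]
  by_cases h1 : α * m i = β * m j
  · by_cases h2 : α * m' i = β * m' j
    · rw [if_pos h1, if_pos h2, if_pos (by omega), pow_add, sub_self, mul_zero]
      exact hz
    · rw [if_pos h1, if_neg h2, if_neg (by omega), mul_zero, sub_self, mul_zero]
      exact hz
  · rw [if_neg h1, zero_mul, sub_zero]
    by_cases h3 : α * m i + α * m' i = β * m j + β * m' j
    · rw [if_pos h3]
      have e : v (coeff m f * coeff m' g * γ ^ (m j + m' j)) =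
          (v (coeff m f) * v γ ^ m j) * (v (coeff m' g) * v γ ^ m' j) := by
        rw [map_mul, map_mul, map_pow, pow_add]
        exact mul_mul_mul_comm _ _ _ _
      rw [e]
      rcases lt_or_ge (α * m i) (β * m j) with h4 | h4
      · exact mul_lt_one_of_lt_of_le (ha2 h4) hb1
      · exact mul_lt_one_of_le_of_lt ha1 (hb2 (by omega))
    · rw [if_neg h3, mul_zero]
      exact hz

/-- coefficients for the second subring -/
def QB (γ : K) (m : Fin 2 →₀ ℕ) : AddSubgroup K where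
  carrier := {a | v a * v γ ^ min (m 0) (m 1) ≤ 1 ∧ (¬ Even (m 0 + m 1) → a = 0)}
  add_mem' := by
    rintro a b ⟨ha, ha'⟩ ⟨hb, hb'⟩
    refine ⟨?_, fun h => by rw [ha' h, hb' h, add_zero]⟩
    have h : v (a + b) * v γ ^ min (m 0) (m 1) ≤
        max (v a * v γ ^ min (m 0) (m 1)) (v b * v γ ^ min (m 0) (m 1)) := by
      rcases le_total (v a) (v b) with h | h
      · exact le_trans (mul_le_mul' (le_trans (v.map_add a b) (max_le h le_rfl)) le_rfl)
          (le_max_right _ _)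
      · exact le_trans (mul_le_mul' (le_trans (v.map_add a b) (max_le le_rfl h)) le_rfl)
          (le_max_left _ _)
    exact le_trans h (max_le ha hb)
  zero_mem' := by simp
  neg_mem' := by
    rintro a ha
    simpa [Valuation.map_neg] using ha

lemma QB_mul (γ : K) (hγ : v γ ≤ 1) (m m' : Fin 2 →₀ ℕ) (a : K)
    (ha : a ∈ QB v γ m) (a' : K) (ha' : a' ∈ QB v γ m') :
    a * a' ∈ QB v γ (m + m') := by
  obtain ⟨ha1, ha2⟩ := ha
  obtain ⟨hb1, hb2⟩ := ha'
  refine ⟨?_, fun h => ?_⟩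
  · have h1 : v γ ^ min ((m + m') 0) ((m + m') 1) ≤
        v γ ^ (min (m 0) (m 1) + min (m' 0) (m' 1)) := by
      refine pow_le_pow_right_of_le_one' hγ ?_
      rw [Finsupp.add_apply, Finsupp.add_apply]
      omega
    calc v (a * a') * v γ ^ min ((m + m') 0) ((m + m') 1)
        ≤ v (a * a') * v γ ^ (min (m 0) (m 1) + min (m' 0) (m' 1)) := mul_le_mul' le_rfl h1
      _ = (v a * v γ ^ min (m 0) (m 1)) * (v a' * v γ ^ min (m' 0) (m' 1)) := by
          rw [map_mul, pow_add]; exact mul_mul_mul_comm _ _ _ _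
      _ ≤ 1 := mul_le_one' ha1 hb1
  · rw [Finsupp.add_apply, Finsupp.add_apply] at h
    by_cases h1 : Even (m 0 + m 1)
    · have h2 : ¬ Even (m' 0 + m' 1) := by
        intro h2
        apply h
        have := h1.add h2
        rwa [show m 0 + m 1 + (m' 0 + m' 1) = m 0 + m' 0 + (m 1 + m' 1) by ring] at this
      rw [hb2 h2, mul_zero]
    · rw [ha2 h1, zero_mul]

/-- the second subring -/
def Q2 (γ : K) (hγ : v γ ≤ 1) : Subring (MvPolynomial (Fin 2) K) :=
  coeffSubring (QB v γ) (by constructor <;> simp) (QB_mul v γ hγ)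

lemma mem_Q2 {γ : K} {hγ : v γ ≤ 1} {f : MvPolynomial (Fin 2) K} :
    f ∈ Q2 v γ hγ ↔ ∀ m, v (coeff m f) * v γ ^ min (m 0) (m 1) ≤ 1 ∧
      (¬ Even (m 0 + m 1) → coeff m f = 0) := Iff.rfl

lemma lin_mul_sub_le {γ : K} {hγ : v γ ≤ 1} {f g : MvPolynomial (Fin 2) K}
    (hf : f ∈ Q2 v γ hγ) (hg : g ∈ Q2 v γ hγ) :
    v (lin (wt 0 1 1 1 γ) (f * g) - lin (wt 0 1 1 1 γ) f * lin (wt 0 1 1 1 γ) g) ≤
      v γ ^ 2 := by
  rw [lin_mul_sub]
  refine v.map_sum_le fun m hm => v.map_sum_le fun m' hm' => ?_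
  obtain ⟨ha1, ha2⟩ := hf m
  obtain ⟨hb1, hb2⟩ := hg m'
  have ha3 : Even (m 0 + m 1) := by
    by_contra h
    exact (mem_support_iff.mp hm) (ha2 h)
  have hb3 : Even (m' 0 + m' 1) := by
    by_contra h
    exact (mem_support_iff.mp hm') (hb2 h)
  have hz : v (0 : K) ≤ v γ ^ 2 := by rw [map_zero]; exact zero_le
  rw [wt, wt, wt]
  simp only [Finsupp.add_apply, one_mul]
  by_cases h1 : m 0 = m 1
  · by_cases h2 : m' 0 = m' 1
    · rw [if_pos h1, if_pos h2, if_pos (by omega), pow_add, sub_self, mul_zero]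
      exact hz
    · rw [if_pos h1, if_neg h2, if_neg (by omega), mul_zero, sub_self, mul_zero]
      exact hz
  · rw [if_neg h1, zero_mul, sub_zero]
    by_cases h3 : m 0 + m' 0 = m 1 + m' 1
    · rw [if_pos h3]
      obtain ⟨a, ha⟩ := ha3
      obtain ⟨b, hb⟩ := hb3
      have h4 : min (m 0) (m 1) + min (m' 0) (m' 1) + 2 ≤ m 1 + m' 1 := by omega
      have e : v (coeff m f * coeff m' g * γ ^ (m 1 + m' 1)) =
          (v (coeff m f) * v (coeff m' g)) * v γ ^ (m 1 + m' 1) := by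
        rw [map_mul, map_mul, map_pow]
      rw [e]
      calc (v (coeff m f) * v (coeff m' g)) * v γ ^ (m 1 + m' 1)
          ≤ (v (coeff m f) * v (coeff m' g)) *
              v γ ^ (min (m 0) (m 1) + min (m' 0) (m' 1) + 2) :=
            mul_le_mul' le_rfl (pow_le_pow_right_of_le_one' hγ h4)
        _ = ((v (coeff m f) * v γ ^ min (m 0) (m 1)) *
              (v (coeff m' g) * v γ ^ min (m' 0) (m' 1))) * v γ ^ 2 := by
            rw [pow_add, pow_add, ← mul_assoc, mul_mul_mul_comm]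
        _ ≤ 1 * v γ ^ 2 := mul_le_mul' (mul_le_one' ha1 hb1) le_rfl
        _ = v γ ^ 2 := one_mul _
    · rw [if_neg h3, mul_zero]
      exact hz

lemma lin_le_one' {γ : K} {hγ : v γ ≤ 1} {f : MvPolynomial (Fin 2) K}
    (hf : f ∈ Q2 v γ hγ) : v (lin (wt 0 1 1 1 γ) f) ≤ 1 := by
  rw [lin_eq]
  refine v.map_sum_le fun m _ => ?_
  rw [wt]
  split_ifs with h
  · rw [map_mul, map_pow]
    have := (hf m).1
    rw [one_mul, one_mul] at h
    rwa [h, min_self] at this
  · simp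

/-- the three fold product -/
lemma lin_mul3 {γ : K} {hγ : v γ ≤ 1} {f g h : MvPolynomial (Fin 2) K}
    (hf : f ∈ Q2 v γ hγ) (hg : g ∈ Q2 v γ hγ) (hh : h ∈ Q2 v γ hγ) :
    v (lin (wt 0 1 1 1 γ) (f * g * h) -
      lin (wt 0 1 1 1 γ) f * lin (wt 0 1 1 1 γ) g * lin (wt 0 1 1 1 γ) h) ≤ v γ ^ 2 := by
  have e : lin (wt 0 1 1 1 γ) (f * g * h) -
      lin (wt 0 1 1 1 γ) f * lin (wt 0 1 1 1 γ) g * lin (wt 0 1 1 1 γ) h =
      (lin (wt 0 1 1 1 γ) (f * g * h) - lin (wt 0 1 1 1 γ) (f * g) * lin (wt 0 1 1 1 γ) h) +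
      (lin (wt 0 1 1 1 γ) (f * g) - lin (wt 0 1 1 1 γ) f * lin (wt 0 1 1 1 γ) g) *
        lin (wt 0 1 1 1 γ) h := by ring
  rw [e]
  refine le_trans (v.map_add _ _) (max_le (lin_mul_sub_le v (mul_mem hf hg) hh) ?_)
  rw [map_mul]
  calc _ ≤ v γ ^ 2 * 1 := mul_le_mul' (lin_mul_sub_le v hf hg) (lin_le_one' v hh)
    _ = _ := mul_one _

/-- the kernel of an approximate homomorphism to the residue field -/
def nearKer {R : Type*} [CommRing R] (l : R →+ K) (h1 : ∀ r, v (l r) ≤ 1)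
    (h2 : ∀ r s, v (l (r * s) - l r * l s) < 1) : Ideal R where
  carrier := {r | v (l r) < 1}
  add_mem' := by
    intro a b ha hb
    change v (l (a + b)) < 1
    rw [map_add]
    exact lt_of_le_of_lt (v.map_add _ _) (max_lt ha hb)
  zero_mem' := by
    change v (l 0) < 1
    rw [map_zero, map_zero]
    exact zero_lt_one
  smul_mem' := by
    intro c x hx
    change v (l (c * x)) < 1
    have e : l (c * x) = (l (c * x) - l c * l x) + l c * l x := by ring
    rw [e]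
    refine lt_of_le_of_lt (v.map_add _ _) (max_lt (h2 c x) ?_)
    rw [map_mul]
    exact mul_lt_one_of_le_of_lt (h1 c) hx

lemma mem_nearKer {R : Type*} [CommRing R] {l : R →+ K} {h1 : ∀ r, v (l r) ≤ 1}
    {h2 : ∀ r s, v (l (r * s) - l r * l s) < 1} {r : R} :
    r ∈ nearKer v l h1 h2 ↔ v (l r) < 1 := Iff.rfl

lemma nearKer_isPrime {R : Type*} [CommRing R] {l : R →+ K} {h1 : ∀ r, v (l r) ≤ 1}
    {h2 : ∀ r s, v (l (r * s) - l r * l s) < 1} (h : l 1 = 1) :
    (nearKer v l h1 h2).IsPrime := by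
  constructor
  · intro h'
    have : (1 : R) ∈ nearKer v l h1 h2 := by rw [h']; trivial
    rw [mem_nearKer, h, map_one] at this
    exact lt_irrefl _ this
  · intro x y hxy
    by_contra hcon
    push Not at hcon
    obtain ⟨hx, hy⟩ := hcon
    rw [mem_nearKer, not_lt] at hx hy
    rw [mem_nearKer] at hxy
    have hx' : v (l x) = 1 := le_antisymm (h1 x) hx
    have hy' : v (l y) = 1 := le_antisymm (h1 y) hy
    have e : l x * l y = l (x * y) - (l (x * y) - l x * l y) := by ring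
    have h3 : v (l x * l y) < 1 := by
      rw [e]
      exact lt_of_le_of_lt (v.map_sub _ _) (max_lt hxy (h2 x y))
    rw [map_mul, hx', hy', mul_one] at h3
    exact lt_irrefl _ h3

end valuation

section gen

variable {R : Type*} [CommRing R] [Algebra ℂ R]
variable {K : Type*} [Field K] [Algebra ℂ K]

/-- a subring containing the constants and the images of generators contains the image -/
lemma forall_mem_of_generators (Φ : R →ₐ[ℂ] MvPolynomial (Fin 2) K) (s : Set R)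
    (hs : Algebra.adjoin ℂ s = ⊤) (Q : Subring (MvPolynomial (Fin 2) K))
    (hC : ∀ c : ℂ, C (algebraMap ℂ K c) ∈ Q) (hQ : ∀ r ∈ s, Φ r ∈ Q) (r : R) : Φ r ∈ Q := by
  have hr : r ∈ Algebra.adjoin ℂ s := by rw [hs]; trivial
  induction hr using Algebra.adjoin_induction with
  | mem x hx => exact hQ x hx
  | algebraMap c =>
    rw [AlgHom.commutes]
    exact hC c
  | add x y _ _ hx hy => rw [map_add]; exact add_mem hx hy
  | mul x y _ _ hx hy => rw [map_mul]; exact mul_mem hx hy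

end gen

section node

variable {R : Type*} [CommRing R] [Algebra ℂ R] {𝒜 : ℕ → Submodule ℂ R}
variable {K : Type*} [Field K] [Algebra ℂ K] {Γ : Type*} [LinearOrderedCommGroupWithZero Γ]
  (v : Valuation K Γ)

omit [Algebra ℂ K] in
/-- the degree of a monomial in two variables -/
lemma sum_of_homogeneous {f : MvPolynomial (Fin 2) K} {n : ℕ} (hf : f.IsHomogeneous n)
    {m : Fin 2 →₀ ℕ} (hm : coeff m f ≠ 0) : m 0 + m 1 = n := by
  have h := hf hm
  rw [Finsupp.weight_apply, Finsupp.sum_fintype _ _ (by simp)] at h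
  simpa [Fin.sum_univ_two] using h

omit [Algebra ℂ K] in
lemma sum_of_homogeneous' {f : MvPolynomial (Fin 2) K} {n : ℕ} (hf : f.IsHomogeneous n)
    {m : Fin 2 →₀ ℕ} (hm : coeff m f ≠ 0) {i j : Fin 2} (hij : i ≠ j) : m i + m j = n := by
  have h := sum_of_homogeneous hf hm
  have h2 : (i = 0 ∧ j = 1) ∨ (i = 1 ∧ j = 0) := by omega
  rcases h2 with ⟨rfl, rfl⟩ | ⟨rfl, rfl⟩
  · exact h
  · rw [add_comm]; exact h

lemma ext_fin2 {m m' : Fin 2 →₀ ℕ} {i j : Fin 2} (hij : i ≠ j) (h1 : m i = m' i)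
    (h2 : m j = m' j) : m = m' := by
  ext l
  have h3 : l = i ∨ l = j := by omega
  rcases h3 with rfl | rfl
  · exact h1
  · exact h2

omit [Algebra ℂ K] in
lemma lin_wt_homogeneous {f : MvPolynomial (Fin 2) K} {n : ℕ} (hf : f.IsHomogeneous n)
    {i j : Fin 2} (hij : i ≠ j) (m₁ : Fin 2 →₀ ℕ) (hn : m₁ i + m₁ j = n) (hn0 : n ≠ 0)
    (γ : K) : lin (wt i j (m₁ j) (m₁ i) γ) f = coeff m₁ f * γ ^ m₁ j := by
  classical
  rw [lin_eq]
  have h1 : ∀ m ∈ f.support, m ≠ m₁ →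
      coeff m f * wt i j (m₁ j) (m₁ i) γ m = 0 := by
    intro m hm hne
    rw [wt, if_neg, mul_zero]
    intro h
    apply hne
    have h2 := sum_of_homogeneous' hf (mem_support_iff.mp hm) hij
    have h3 : m j * n = m₁ j * n := by
      rw [← hn] at h2 ⊢
      have h4 : m i = m₁ i + m₁ j - m j := by omega
      nlinarith
    have h5 : m j = m₁ j := Nat.eq_of_mul_eq_mul_right (Nat.pos_of_ne_zero hn0) h3
    exact ext_fin2 hij (by omega) h5
  by_cases hm : m₁ ∈ f.support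
  · rw [Finset.sum_eq_single_of_mem m₁ hm h1, wt, if_pos (mul_comm _ _)]
  · rw [Finset.sum_eq_zero (fun m hm' => h1 m hm' (by rintro rfl; exact hm hm')),
      notMem_support_iff.mp hm, zero_mul]

/-- the approximate point of weight `(α, β)` -/
noncomputable def wpt (Φ : R →ₐ[ℂ] MvPolynomial (Fin 2) K) (w : (Fin 2 →₀ ℕ) → K) :
    R →+ K where
  toFun r := lin w (Φ r)
  map_zero' := by rw [map_zero, map_zero]
  map_add' := by intro x y; rw [map_add, map_add]

lemma wpt_apply (Φ : R →ₐ[ℂ] MvPolynomial (Fin 2) K) (w : (Fin 2 →₀ ℕ) → K) (r : R) :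
    wpt Φ w r = lin w (Φ r) := rfl

lemma wpt_one (Φ : R →ₐ[ℂ] MvPolynomial (Fin 2) K) (i j : Fin 2) (α β : ℕ) (γ : K) :
    wpt Φ (wt i j α β γ) 1 = 1 := by
  rw [wpt_apply, map_one]
  have h : (1 : MvPolynomial (Fin 2) K) = monomial 0 1 := rfl
  rw [h, lin_monomial, wt, if_pos (by simp)]
  simp

/-- the node is not the vertex: the case where the unit coefficient is on the side `i` -/
lemma node_nonvertex (Φ : R →ₐ[ℂ] MvPolynomial (Fin 2) K)
    (hΦ : ∀ k, ∀ r ∈ 𝒜 k, (Φ r).IsHomogeneous (2 * k))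
    (hC : ∀ c : ℂ, v (algebraMap ℂ K c) ≤ 1)
    (s : Finset R) (hs : Algebra.adjoin ℂ (s : Set R) = ⊤) (hn : ∀ r ∈ s, ∃ k ≠ 0, r ∈ 𝒜 k)
    (γ : K) (hγ : v γ < 1) {i j : Fin 2} (hij : i ≠ j)
    (hQ : ∀ r ∈ s, ∀ m, v (coeff m (Φ r)) * v γ ^ min (m i) (m j) ≤ 1)
    (r₁ : R) (hr₁ : r₁ ∈ s) (m₁ : Fin 2 →₀ ℕ) (h1 : v (coeff m₁ (Φ r₁)) * v γ ^ m₁ j = 1)
    (hpos : 0 < m₁ j) (hle : m₁ j ≤ m₁ i)
    (hLb : ∀ p : Ideal R, p.IsPrime → (∃ k, 0 < k ∧ ∃ r ∈ 𝒜 k, r ∉ p) →
      ∀ d : ℕ, (∀ k, ∀ r ∈ 𝒜 k, r ∉ p → d ∣ k) → d = 1) :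
    ∃ k, 0 < k ∧ ∃ r ∈ 𝒜 k, ∃ m : Fin 2 →₀ ℕ, m i = k ∧ m j = k ∧
      v (coeff m (Φ r)) * v γ ^ k = 1 := by
  classical
  choose! deg hdeg0 hdeg using hn
  -- the extremal pairs
  let S : Finset (R × (Fin 2 →₀ ℕ)) := (s ×ˢ (s.biUnion fun r => (Φ r).support)).filter
    fun p => p.2 j ≤ p.2 i ∧ v (coeff p.2 (Φ p.1)) * v γ ^ p.2 j = 1
  have hS : ∀ r ∈ s, ∀ m : Fin 2 →₀ ℕ, m j ≤ m i → v (coeff m (Φ r)) * v γ ^ m j = 1 →
      (r, m) ∈ S := by
    intro r hr m hm h
    refine Finset.mem_filter.mpr ⟨Finset.mem_product.mpr ⟨hr, ?_⟩, hm, h⟩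
    refine Finset.mem_biUnion.mpr ⟨r, hr, mem_support_iff.mpr ?_⟩
    intro h0
    rw [h0, map_zero, zero_mul] at h
    exact zero_ne_one h
  have hSm : ∀ p ∈ S, p.1 ∈ s ∧ p.2 j ≤ p.2 i ∧ v (coeff p.2 (Φ p.1)) * v γ ^ p.2 j = 1 ∧
      p.2 i + p.2 j = 2 * deg p.1 := by
    intro p hp
    obtain ⟨h2, h3, h4⟩ := Finset.mem_filter.mp hp
    have h5 := (Finset.mem_product.mp h2).1
    refine ⟨h5, h3, h4, sum_of_homogeneous' (hΦ _ _ (hdeg _ h5)) ?_ hij⟩
    intro h0
    rw [h0, map_zero, zero_mul] at h4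
    exact zero_ne_one h4
  obtain ⟨⟨r₂, m₂⟩, hp₂, hmin⟩ := Finset.exists_min_image S
    (fun p => (p.2 i : ℚ) / (p.2 i + p.2 j)) ⟨_, hS r₁ hr₁ m₁ hle h1⟩
  obtain ⟨hr₂, hle₂, h2, hsum₂⟩ := hSm _ hp₂
  simp only at hr₂ hle₂ h2 hsum₂ hmin
  have hmin' : ∀ r ∈ s, ∀ m : Fin 2 →₀ ℕ, m j ≤ m i → v (coeff m (Φ r)) * v γ ^ m j = 1 →
      m₂ i * m j ≤ m₂ j * m i := by
    intro r hr m hm h
    have h3 := hmin _ (hS r hr m hm h)
    have h4 := (hSm _ (hS r hr m hm h)).2.2.2
    simp only at h3 h4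
    have h5 : 0 < m i + m j := by
      have := Nat.pos_of_ne_zero (hdeg0 r hr)
      omega
    have h6 : 0 < m₂ i + m₂ j := by
      have := Nat.pos_of_ne_zero (hdeg0 _ hr₂)
      omega
    have h5' : (0 : ℚ) < m i + m j := by exact_mod_cast h5
    have h6' : (0 : ℚ) < m₂ i + m₂ j := by exact_mod_cast h6
    rw [div_le_div_iff₀ h6' h5'] at h3
    have h7 : m₂ i * (m i + m j) ≤ m i * (m₂ i + m₂ j) := by exact_mod_cast h3
    nlinarith
  set k₀ := deg r₂ with hk₀
  have hk₀pos : 0 < k₀ := Nat.pos_of_ne_zero (hdeg0 _ hr₂)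
  -- the second point
  have hgen : ∀ r, Φ r ∈ Q1 v i j (m₂ j) (m₂ i) γ := by
    refine forall_mem_of_generators Φ (s : Set R) hs _ ?_ ?_
    · intro c m
      rw [coeff_C]
      split_ifs with h
      · subst h
        refine ⟨?_, ?_⟩
        · simpa using hC c
        · intro h; simp at h
      · exact zero_mem _
    · intro r hr m
      have hq := hQ r hr m
      have hfirst : v (coeff m (Φ r)) * v γ ^ m j ≤ 1 :=
        le_trans (mul_le_mul' le_rfl (pow_le_pow_right_of_le_one' hγ.le (min_le_right _ _))) hq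
      refine ⟨hfirst, fun hlt => ?_⟩
      rcases lt_or_ge (m i) (m j) with h3 | h3
      · rw [min_eq_left h3.le] at hq
        have e : v γ ^ m j = v γ ^ m i * v γ ^ (m j - m i) := by
          rw [← pow_add]; congr 1; omega
        rw [e, ← mul_assoc]
        refine mul_lt_one_of_le_of_lt hq (pow_lt_one₀ zero_le hγ (by omega))
      · refine lt_of_le_of_ne hfirst fun h => ?_
        have := hmin' r hr m h3 h
        omega
  have hone := wpt_one Φ i j (m₂ j) (m₂ i) γ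
  have hm1 : ∀ r, v (wpt Φ (wt i j (m₂ j) (m₂ i) γ) r) ≤ 1 := fun r => lin_le_one v (hgen r)
  have hm2 : ∀ r r', v (wpt Φ (wt i j (m₂ j) (m₂ i) γ) (r * r') -
      wpt Φ (wt i j (m₂ j) (m₂ i) γ) r * wpt Φ (wt i j (m₂ j) (m₂ i) γ) r') < 1 := by
    intro r r'
    rw [wpt_apply, wpt_apply, wpt_apply, map_mul]
    exact lin_mul_sub_lt v (hgen r) (hgen r')
  have hprime := nearKer_isPrime (v := v) (h1 := hm1) (h2 := hm2) hone
  have hval : wpt Φ (wt i j (m₂ j) (m₂ i) γ) r₂ = coeff m₂ (Φ r₂) * γ ^ m₂ j := by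
    rw [wpt_apply]
    exact lin_wt_homogeneous (hΦ _ _ (hdeg _ hr₂)) hij m₂ hsum₂ (by omega) γ
  have hnot : r₂ ∉ nearKer v (wpt Φ (wt i j (m₂ j) (m₂ i) γ)) hm1 hm2 := by
    rw [mem_nearKer, hval, map_mul, map_pow, h2]
    exact lt_irrefl _
  have hd := hLb _ hprime ⟨k₀, hk₀pos, r₂, hdeg _ hr₂, hnot⟩ (k₀ / Nat.gcd k₀ (m₂ j)) (by
    intro k r hr hrp
    have hne : wpt Φ (wt i j (m₂ j) (m₂ i) γ) r ≠ 0 := by
      intro h0
      apply hrp
      rw [mem_nearKer, h0, map_zero]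
      exact zero_lt_one
    rw [wpt_apply, lin_eq] at hne
    obtain ⟨m, hm, hne'⟩ := Finset.exists_ne_zero_of_sum_ne_zero hne
    have h3 : m₂ j * m i = m₂ i * m j := by
      by_contra h
      rw [wt, if_neg h, mul_zero] at hne'
      exact hne' rfl
    have h4 := sum_of_homogeneous' (hΦ k r hr) (mem_support_iff.mp hm) hij
    have h5 : m₂ j * k = k₀ * m j := by nlinarith
    have hg : 0 < Nat.gcd k₀ (m₂ j) := Nat.gcd_pos_of_pos_left _ hk₀pos
    have hcop : Nat.Coprime (k₀ / Nat.gcd k₀ (m₂ j)) (m₂ j / Nat.gcd k₀ (m₂ j)) :=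
      Nat.coprime_div_gcd_div_gcd hg
    refine hcop.dvd_of_dvd_mul_left ?_
    refine ⟨m j, ?_⟩
    refine Nat.eq_of_mul_eq_mul_left hg ?_
    rw [← mul_assoc, ← mul_assoc, Nat.mul_div_cancel' (Nat.gcd_dvd_right _ _),
      Nat.mul_div_cancel' (Nat.gcd_dvd_left _ _)]
    exact h5)
  have hdvd : k₀ ∣ m₂ j := by
    have h3 : k₀ = Nat.gcd k₀ (m₂ j) := by
      have := Nat.div_mul_cancel (Nat.gcd_dvd_left k₀ (m₂ j))
      rw [hd, one_mul] at this
      exact this.symm
    rw [h3]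
    exact Nat.gcd_dvd_right _ _
  have hpos₂ : 0 < m₂ j := by
    have h3 := hmin' r₁ hr₁ m₁ hle h1
    rcases Nat.eq_zero_or_pos (m₂ j) with h | h
    · rw [h, zero_mul] at h3
      have h4 : 0 < m₂ i := by omega
      have := Nat.mul_pos h4 hpos
      omega
    · exact h
  have h3 : m₂ j = k₀ := by
    have := Nat.le_of_dvd hpos₂ hdvd
    omega
  refine ⟨k₀, hk₀pos, r₂, hdeg _ hr₂, m₂, by omega, h3, ?_⟩
  rw [← h3]
  exact h2

/-- the choice of the scaling -/
lemma exists_scaling [IsAlgClosed K] (Φ : R →ₐ[ℂ] MvPolynomial (Fin 2) K) (s : Finset R)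
    (hend : ∀ r ∈ s, ∀ m : Fin 2 →₀ ℕ, (m 0 = 0 ∨ m 1 = 0) → v (coeff m (Φ r)) ≤ 1) :
    (∀ r ∈ s, ∀ m, v (coeff m (Φ r)) ≤ 1) ∨ ∃ γ : K, γ ≠ 0 ∧ v γ < 1 ∧
      (∀ r ∈ s, ∀ m : Fin 2 →₀ ℕ, v (coeff m (Φ r)) * v γ ^ min (m 0) (m 1) ≤ 1) ∧
      ∃ r ∈ s, ∃ m : Fin 2 →₀ ℕ, 0 < m 0 ∧ 0 < m 1 ∧
        v (coeff m (Φ r)) * v γ ^ min (m 0) (m 1) = 1 := by
  classical
  let T : Finset (R × (Fin 2 →₀ ℕ)) := (s ×ˢ (s.biUnion fun r => (Φ r).support)).filter
    fun p => 1 < v (coeff p.2 (Φ p.1))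
  have hT : ∀ r ∈ s, ∀ m : Fin 2 →₀ ℕ, 1 < v (coeff m (Φ r)) → (r, m) ∈ T := by
    intro r hr m h
    refine Finset.mem_filter.mpr ⟨Finset.mem_product.mpr ⟨hr, ?_⟩, h⟩
    refine Finset.mem_biUnion.mpr ⟨r, hr, mem_support_iff.mpr ?_⟩
    intro h0
    rw [h0, map_zero] at h
    exact not_lt_of_ge zero_le h
  have hT' : ∀ p ∈ T, p.1 ∈ s ∧ 1 < v (coeff p.2 (Φ p.1)) ∧ 0 < min (p.2 0) (p.2 1) := by
    intro p hp
    obtain ⟨h2, h3⟩ := Finset.mem_filter.mp hp
    have h5 := (Finset.mem_product.mp h2).1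
    refine ⟨h5, h3, ?_⟩
    by_contra h
    have h6 : p.2 0 = 0 ∨ p.2 1 = 0 := by omega
    exact not_lt_of_ge (hend _ h5 _ h6) h3
  rcases T.eq_empty_or_nonempty with hE | hE
  · left
    intro r hr m
    by_contra h
    have := hT r hr m (not_le.mp h)
    rw [hE] at this
    exact absurd this (Finset.notMem_empty _)
  right
  have hg : ∀ p : R × (Fin 2 →₀ ℕ), ∃ g : K, 0 < min (p.2 0) (p.2 1) →
      g ^ min (p.2 0) (p.2 1) = (coeff p.2 (Φ p.1))⁻¹ := by
    intro p
    by_cases h : 0 < min (p.2 0) (p.2 1)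
    · obtain ⟨g, hg⟩ := IsAlgClosed.exists_pow_nat_eq (coeff p.2 (Φ p.1))⁻¹ h
      exact ⟨g, fun _ => hg⟩
    · exact ⟨0, fun h' => absurd h' h⟩
  choose g hg using hg
  have hval : ∀ p ∈ T, v (coeff p.2 (Φ p.1)) * v (g p) ^ min (p.2 0) (p.2 1) = 1 := by
    intro p hp
    obtain ⟨h1, h2, h3⟩ := hT' p hp
    rw [← map_pow, hg p h3, ← map_mul, mul_inv_cancel₀, map_one]
    intro h0
    rw [h0, map_zero] at h2
    exact not_lt_of_ge zero_le h2
  obtain ⟨q, hq, hmin⟩ := Finset.exists_min_image T (fun p => v (g p)) hE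
  have hq1 := hval q hq
  obtain ⟨hq2, hq3, hq4⟩ := hT' q hq
  have hlt : v (g q) < 1 := by
    by_contra h
    rw [not_lt] at h
    have h1 : 1 ≤ v (g q) ^ min (q.2 0) (q.2 1) := one_le_pow_of_one_le' h _
    have h2 : 1 * 1 < v (coeff q.2 (Φ q.1)) * v (g q) ^ min (q.2 0) (q.2 1) :=
      lt_of_lt_of_le (by rw [one_mul]; exact hq3)
        (le_trans (by rw [mul_one]) (mul_le_mul' le_rfl h1))
    rw [one_mul, hq1] at h2
    exact lt_irrefl _ h2
  refine ⟨g q, ?_, hlt, ?_, q.1, hq2, q.2, by omega, by omega, hq1⟩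
  · intro h0
    rw [h0, map_zero, zero_pow (by omega), mul_zero] at hq1
    exact zero_ne_one hq1
  · intro r hr m
    by_cases h : 1 < v (coeff m (Φ r))
    · have h1 := hT r hr m h
      calc v (coeff m (Φ r)) * v (g q) ^ min (m 0) (m 1)
          ≤ v (coeff m (Φ r)) * v (g (r, m)) ^ min (m 0) (m 1) :=
            mul_le_mul' le_rfl (pow_le_pow_left' (hmin _ h1) _)
        _ = 1 := hval _ h1
    · exact mul_le_one' (not_lt.mp h) (pow_le_one' hlt.le _)

omit [Algebra ℂ K] in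
lemma lin_X_mul (γ : K) (f : MvPolynomial (Fin 2) K) :
    lin (wt 0 1 1 1 γ) (X 0 * X 1 * f) = γ * lin (wt 0 1 1 1 γ) f := by
  induction f using MvPolynomial.induction_on' with
  | add p q hp hq => rw [mul_add, map_add, map_add, mul_add, hp, hq]
  | monomial m c =>
    rw [X, X, monomial_mul, monomial_mul, lin_monomial, lin_monomial, wt, wt]
    simp only [Finsupp.add_apply, one_mul]
    simp only [Finsupp.single_eq_same, Finsupp.single_apply]
    norm_num
    by_cases h : m 0 = m 1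
    · rw [if_pos (by omega), if_pos h]
      ring
    · rw [if_neg (by omega), if_neg h]

omit [Algebra ℂ K] in
lemma lin_euler (γ : K) (f : MvPolynomial (Fin 2) K) :
    lin (wt 0 1 1 1 γ) (X 0 * pderiv 0 f) = lin (wt 0 1 1 1 γ) (X 1 * pderiv 1 f) := by
  induction f using MvPolynomial.induction_on' with
  | add p q hp hq => rw [map_add, map_add, mul_add, mul_add, map_add, map_add, hp, hq]
  | monomial m c =>
    rw [X_mul_pderiv_monomial, X_mul_pderiv_monomial, map_nsmul, map_nsmul, lin_monomial, wt]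
    by_cases h : m 0 = m 1
    · rw [h]
    · rw [if_neg (by omega)]
      simp

omit [Algebra ℂ K] in
lemma coeff_euler (i : Fin 2) (f : MvPolynomial (Fin 2) K) (m : Fin 2 →₀ ℕ) :
    coeff m (X i * pderiv i f) = m i • coeff m f := by
  induction f using MvPolynomial.induction_on' with
  | add p q hp hq => rw [map_add, mul_add, coeff_add, coeff_add, hp, hq, smul_add]
  | monomial m' c =>
    rw [X_mul_pderiv_monomial, coeff_smul, coeff_monomial]
    split_ifs with h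
    · rw [h]
    · simp

omit [Algebra ℂ K] in
lemma coeff_pderiv' (i : Fin 2) (f : MvPolynomial (Fin 2) K) (m : Fin 2 →₀ ℕ) :
    coeff m (pderiv i f) = (m i + 1) • coeff (Finsupp.single i 1 + m) f := by
  have h := coeff_euler i f (Finsupp.single i 1 + m)
  rw [coeff_X_mul] at h
  rw [h, Finsupp.add_apply, Finsupp.single_eq_same, add_comm 1]

omit [Algebra ℂ K] in
lemma lin_wt01 (f : MvPolynomial (Fin 2) K) :
    lin (wt 0 1 1 0 (1 : K)) f = aeval ![0, 1] f := by
  induction f using MvPolynomial.induction_on' with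
  | add p q hp hq => rw [map_add, map_add, hp, hq]
  | monomial m c =>
    rw [lin_monomial, wt, aeval_monomial, Finsupp.prod_fintype _ _ (by simp)]
    simp only [Fin.prod_univ_two, one_mul, zero_mul, one_pow, Algebra.algebraMap_self,
      RingHom.id_apply, Matrix.cons_val_zero, Matrix.cons_val_one, mul_one]
    by_cases h : m 0 = 0
    · rw [if_pos h, h, pow_zero]
    · rw [if_neg h, zero_pow h]

omit [Algebra ℂ K] in
lemma aeval_01 {f : MvPolynomial (Fin 2) K} {n : ℕ} (hf : f.IsHomogeneous n)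
    {m : Fin 2 →₀ ℕ} (h0 : m 0 = 0) (h1 : m 1 = n) : aeval ![0, 1] f = coeff m f := by
  classical
  rw [← lin_wt01, lin_eq]
  have key : ∀ m' ∈ f.support, m' ≠ m → coeff m' f * wt 0 1 1 0 (1 : K) m' = 0 := by
    intro m' hm' hne
    rw [wt, if_neg, mul_zero]
    intro h
    apply hne
    have h2 := sum_of_homogeneous hf (mem_support_iff.mp hm')
    exact ext_fin2 (i := 0) (j := 1) (by decide) (by omega) (by omega)
  by_cases hm : m ∈ f.support
  · rw [Finset.sum_eq_single_of_mem m hm key, wt, if_pos (by omega), one_pow, mul_one]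
  · rw [Finset.sum_eq_zero (fun m' hm' => key m' hm' (by rintro rfl; exact hm hm')),
      notMem_support_iff.mp hm]

omit [Algebra ℂ K] in
lemma aeval_10 {f : MvPolynomial (Fin 2) K} {n : ℕ} (hf : f.IsHomogeneous n)
    {m : Fin 2 →₀ ℕ} (h0 : m 1 = 0) (h1 : m 0 = n) : aeval ![1, 0] f = coeff m f := by
  classical
  have e : ∀ g : MvPolynomial (Fin 2) K, aeval ![1, 0] g = lin (wt 1 0 1 0 (1 : K)) g := by
    intro g
    induction g using MvPolynomial.induction_on' with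
    | add p q hp hq => rw [map_add, map_add, hp, hq]
    | monomial m c =>
      rw [lin_monomial, wt, aeval_monomial, Finsupp.prod_fintype _ _ (by simp)]
      simp only [Fin.prod_univ_two, one_mul, zero_mul, one_pow, Algebra.algebraMap_self,
        RingHom.id_apply, Matrix.cons_val_zero, Matrix.cons_val_one]
      by_cases h : m 1 = 0
      · rw [if_pos h, h, pow_zero]
      · rw [if_neg h, zero_pow h]
  rw [e, lin_eq]
  have key : ∀ m' ∈ f.support, m' ≠ m → coeff m' f * wt 1 0 1 0 (1 : K) m' = 0 := by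
    intro m' hm' hne
    rw [wt, if_neg, mul_zero]
    intro h
    apply hne
    have h2 := sum_of_homogeneous hf (mem_support_iff.mp hm')
    exact ext_fin2 (i := 0) (j := 1) (by decide) (by omega) (by omega)
  by_cases hm : m ∈ f.support
  · rw [Finset.sum_eq_single_of_mem m hm key, wt, if_pos (by omega), one_pow, mul_one]
  · rw [Finset.sum_eq_zero (fun m' hm' => key m' hm' (by rintro rfl; exact hm hm')),
      notMem_support_iff.mp hm]

lemma v_nat_le (hC : ∀ c : ℂ, v (algebraMap ℂ K c) ≤ 1) (n : ℕ) : v (n : K) ≤ 1 := by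
  have := hC n
  rwa [map_natCast] at this

lemma mul_pderiv_mem (hC : ∀ c : ℂ, v (algebraMap ℂ K c) ≤ 1) {γ : K} {hγ : v γ ≤ 1}
    {f : MvPolynomial (Fin 2) K} (hf : f ∈ Q2 v γ hγ) (i : Fin 2) :
    X i * pderiv i f ∈ Q2 v γ hγ := by
  intro m
  rw [coeff_euler, nsmul_eq_mul]
  refine ⟨?_, fun h => by rw [(hf m).2 h, mul_zero]⟩
  rw [map_mul, mul_assoc]
  exact mul_le_one' (v_nat_le v hC _) (hf m).1

/-- the symmetry of the adjugate of a skew matrix with nonzero determinant -/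
lemma adjugate_skew {N : ℕ} (A : Matrix (Fin N) (Fin N) R) (hA : A.transpose = -A)
    (hdet : A.det ≠ 0) (i j : Fin N) : A.adjugate i j = -A.adjugate j i := by
  have hN : Even N := by
    by_contra h
    have h1 : A.det = -A.det := by
      conv_lhs => rw [← Matrix.det_transpose, hA, Matrix.det_neg, Fintype.card_fin,
        (Nat.not_even_iff_odd.mp h).neg_one_pow]
      ring
    apply hdet
    have h2 : (2 : ℂ) • A.det = 0 := by
      rw [two_smul]
      nth_rewrite 1 [h1]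
      ring
    have h3 := congrArg (fun x => (2⁻¹ : ℂ) • x) h2
    simpa [smul_smul] using h3
  rcases Nat.eq_zero_or_pos N with h0 | h0
  · subst h0
    exact i.elim0
  have h1 : A.transpose.adjugate = -A.adjugate := by
    rw [hA]
    have e : -A = (-1 : R) • A := by rw [neg_smul, one_smul]
    rw [e, Matrix.adjugate_smul, Fintype.card_fin]
    have h2 : Odd (N - 1) := by
      obtain ⟨k, hk⟩ := hN
      exact ⟨k - 1, by omega⟩
    rw [h2.neg_one_pow, neg_smul, one_smul]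
  rw [← Matrix.adjugate_transpose] at h1
  have h2 := congrFun (congrFun h1 j) i
  rw [Matrix.transpose_apply, Matrix.neg_apply] at h2
  exact h2

/-- the estimate at the node -/
lemma b_le (Φ : R →ₐ[ℂ] MvPolynomial (Fin 2) K)
    (hC : ∀ c : ℂ, v (algebraMap ℂ K c) ≤ 1) {γ : K} (hγ0 : γ ≠ 0) (hγ : v γ ≤ 1)
    (hgen : ∀ r, Φ r ∈ Q2 v γ hγ) (b : K) {N : ℕ} (A : Matrix (Fin N) (Fin N) R)
    (hA : A.transpose = -A) (x : Fin N → R) (hdet : v (lin (wt 0 1 1 1 γ) (Φ A.det)) = 1)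
    (hstar : C b * Φ A.det = ∑ i, ∑ j, pderiv 0 (Φ (x i)) * Φ (A.adjugate i j) *
      pderiv 1 (Φ (x j))) : v b ≤ v γ := by
  have hdet0 : A.det ≠ 0 := by
    intro h
    rw [h, map_zero, map_zero, map_zero] at hdet
    exact zero_ne_one hdet
  have hs : X 0 * X 1 * (C b * Φ A.det) = ∑ i, ∑ j, (X 0 * pderiv 0 (Φ (x i))) *
      Φ (A.adjugate i j) * (X 1 * pderiv 1 (Φ (x j))) := by
    rw [hstar, Finset.mul_sum]
    refine Finset.sum_congr rfl fun i _ => ?_
    rw [Finset.mul_sum]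
    refine Finset.sum_congr rfl fun j _ => ?_
    ring
  have h1 := congrArg (lin (wt 0 1 1 1 γ)) hs
  rw [lin_X_mul, ← smul_eq_C_mul, map_smul, smul_eq_mul] at h1
  -- the approximate value is zero
  have hzero : ∑ i, ∑ j, lin (wt 0 1 1 1 γ) (X 0 * pderiv 0 (Φ (x i))) *
      lin (wt 0 1 1 1 γ) (Φ (A.adjugate i j)) *
      lin (wt 0 1 1 1 γ) (X 1 * pderiv 1 (Φ (x j))) = 0 := by
    have e : ∀ i j, lin (wt 0 1 1 1 γ) (Φ (A.adjugate i j)) =
        -lin (wt 0 1 1 1 γ) (Φ (A.adjugate j i)) := by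
      intro i j
      rw [adjugate_skew A hA hdet0 i j, map_neg, map_neg]
    set S := ∑ i, ∑ j, lin (wt 0 1 1 1 γ) (X 0 * pderiv 0 (Φ (x i))) *
      lin (wt 0 1 1 1 γ) (Φ (A.adjugate i j)) *
      lin (wt 0 1 1 1 γ) (X 1 * pderiv 1 (Φ (x j))) with hS
    have h2 : S = -S := by
      conv_lhs => rw [hS, Finset.sum_comm]
      rw [hS, ← Finset.sum_neg_distrib]
      refine Finset.sum_congr rfl fun i _ => ?_
      rw [← Finset.sum_neg_distrib]
      refine Finset.sum_congr rfl fun j _ => ?_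
      rw [e j i, ← lin_euler, ← lin_euler]
      ring
    have h3 : (2 : K) ≠ 0 := by
      have : CharZero K := charZero_of_injective_algebraMap (algebraMap ℂ K).injective
      exact two_ne_zero
    have h4 : (2 : K) * S = 0 := by linear_combination h2
    exact (mul_eq_zero.mp h4).resolve_left h3
  have h2 : v (γ * (b * lin (wt 0 1 1 1 γ) (Φ A.det))) ≤ v γ ^ 2 := by
    rw [h1, ← sub_zero (lin (wt 0 1 1 1 γ) _), ← hzero, map_sum, ← Finset.sum_sub_distrib]
    refine v.map_sum_le fun i _ => ?_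
    rw [map_sum, ← Finset.sum_sub_distrib]
    refine v.map_sum_le fun j _ => ?_
    exact lin_mul3 v (mul_pderiv_mem v hC (hgen _) 0) (hgen _)
      (mul_pderiv_mem v hC (hgen _) 1)
  rw [map_mul, map_mul, hdet, mul_one, pow_two] at h2
  exact le_of_mul_le_mul_left h2 (zero_lt_iff.mpr ((v.ne_zero_iff).mpr hγ0))

end node

section final

universe u

variable {R : Type u} [CommRing R] [Algebra ℂ R] {𝒜 : ℕ → Submodule ℂ R} [GradedAlgebra 𝒜]
  {P : R →ₗ[ℂ] R →ₗ[ℂ] R}

/-- the degrees in which a non-vertex prime is nonzero generate the group of integers -/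
lemma lineBundle_prime (hX : IsContactFano 𝒜 P) (p : Ideal R)
    (hp : ∃ k, 0 < k ∧ ∃ r ∈ 𝒜 k, r ∉ p) [hp' : p.IsPrime] (d : ℕ)
    (hd : ∀ k, ∀ r ∈ 𝒜 k, r ∉ p → d ∣ k) : d = 1 := by
  have : Algebra.FiniteType ℂ R := hX.finiteType
  obtain ⟨k, hk, r, hr, hrp⟩ := hp
  obtain ⟨q, hq, hqr⟩ : ∃ q : R →ₐ[ℂ] ℂ, (∀ s ∈ p, q s = 0) ∧ q r ≠ 0 := by
    by_contra h
    push Not at h
    have h1 := mem_radical_of_forall p r h
    rw [hp'.radical] at h1
    exact hrp h1
  refine hX.lineBundle q (fun h => hqr (h k hk r hr)) d fun k' r' hr' hne => ?_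
  exact hd k' r' hr' fun h => hne (hq r' h)

variable {K : Type*} [Field K] [Algebra ℂ K] {Γ : Type*} [LinearOrderedCommGroupWithZero Γ]
  (v : Valuation K Γ)

/-- Boundedness of the two point function: `v b ≤ v γ` and `γ ^ min(m₀, m₁)` bounds the
coefficient of `s ^ m₀ t ^ m₁`. -/
theorem bound (hX : IsContactFano 𝒜 P) [IsAlgClosed K]
    (hC : ∀ c : ℂ, v (algebraMap ℂ K c) ≤ 1)
    (Φ : R →ₐ[ℂ] MvPolynomial (Fin 2) K)
    (hΦ : ∀ k, ∀ r ∈ 𝒜 k, (Φ r).IsHomogeneous (2 * k))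
    (h10 : ∀ r, v (aeval ![1, 0] (Φ r)) ≤ 1) (h01 : ∀ r, v (aeval ![0, 1] (Φ r)) ≤ 1)
    (hne : ∃ k, 0 < k ∧ ∃ r ∈ 𝒜 k, v (aeval ![0, 1] (Φ r)) = 1) (b : K)
    (hchart : ∀ p : Ideal R, p.IsPrime → (∀ r, Φ r = 0 → r ∈ p) →
      (∃ k, 0 < k ∧ ∃ r ∈ 𝒜 k, r ∉ p) →
      ∃ (N : ℕ) (x : Fin N → R), (Matrix.of fun i j => P (x i) (x j)).det ∉ p ∧
        C b * Φ (Matrix.of fun i j => P (x i) (x j)).det =
          ∑ i, ∑ j, pderiv 0 (Φ (x i)) *
            Φ ((Matrix.of fun i j => P (x i) (x j)).adjugate i j) * pderiv 1 (Φ (x j))) :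
    ∃ γ : K, γ ≠ 0 ∧ v γ ≤ 1 ∧ v b ≤ v γ ∧
      ∀ r m, v (coeff m (Φ r)) * v γ ^ min (m 0) (m 1) ≤ 1 := by
  classical
  have hft : Algebra.FiniteType ℂ R := hX.finiteType
  obtain ⟨s, hs, hn⟩ := exists_generators 𝒜 hX.connected
  have hskew : ∀ (N : ℕ) (x : Fin N → R),
      (Matrix.of fun i j => P (x i) (x j)).transpose = -(Matrix.of fun i j => P (x i) (x j)) := by
    intro N x
    ext i j
    rw [Matrix.transpose_apply, Matrix.neg_apply, Matrix.of_apply, Matrix.of_apply]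
    exact hX.skew _ _
  have hend : ∀ r ∈ s, ∀ m : Fin 2 →₀ ℕ, (m 0 = 0 ∨ m 1 = 0) → v (coeff m (Φ r)) ≤ 1 := by
    intro r hr m hm
    obtain ⟨k, hk0, hk⟩ := hn r hr
    by_cases hc : coeff m (Φ r) = 0
    · rw [hc, map_zero]; exact zero_le
    have hsum := sum_of_homogeneous (hΦ k r hk) hc
    rcases hm with hm | hm
    · rw [← aeval_01 (hΦ k r hk) hm (by omega)]
      exact h01 r
    · rw [← aeval_10 (hΦ k r hk) hm (by omega)]
      exact h10 r
  rcases exists_scaling v Φ s hend with hA | ⟨γ, hγ0, hγ1, hγ2, r₁, hr₁, m₁, hm0, hm1, hm⟩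
  · -- good reduction
    have hgen : ∀ r, Φ r ∈ Q1 v 0 1 1 0 (1 : K) := by
      refine forall_mem_of_generators Φ (s : Set R) hs _ ?_ ?_
      · intro c m
        rw [coeff_C]
        split_ifs with h
        · refine ⟨?_, fun h => by simp at h⟩
          simpa using hC c
        · exact zero_mem _
      · intro r hr m
        refine ⟨?_, fun h => by simp at h⟩
        simpa using hA r hr m
    have hone := wpt_one Φ 0 1 1 0 (1 : K)
    have hm1 : ∀ r, v (wpt Φ (wt 0 1 1 0 (1 : K)) r) ≤ 1 := fun r => lin_le_one v (hgen r)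
    have hm2 : ∀ r r', v (wpt Φ (wt 0 1 1 0 (1 : K)) (r * r') -
        wpt Φ (wt 0 1 1 0 (1 : K)) r * wpt Φ (wt 0 1 1 0 (1 : K)) r') < 1 := by
      intro r r'
      rw [wpt_apply, wpt_apply, wpt_apply, map_mul]
      exact lin_mul_sub_lt v (hgen r) (hgen r')
    have hprime := nearKer_isPrime (v := v) (h1 := hm1) (h2 := hm2) hone
    obtain ⟨k, hk, r, hr, hr1⟩ := hne
    obtain ⟨N, x, hdet, hstar⟩ := hchart _ hprime (fun r hr => by
      rw [mem_nearKer, wpt_apply, hr, map_zero, map_zero]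
      exact zero_lt_one) ⟨k, hk, r, hr, by
      rw [mem_nearKer, wpt_apply, lin_wt01, hr1]
      exact lt_irrefl _⟩
    refine ⟨1, one_ne_zero, by rw [map_one], ?_, fun r m => ?_⟩
    · rw [map_one]
      rw [mem_nearKer, not_lt] at hdet
      have hdet1 : v (lin (wt 0 1 1 0 (1 : K))
          (Φ (Matrix.of fun i j => P (x i) (x j)).det)) = 1 := le_antisymm (hm1 _) hdet
      have h1 := congrArg (lin (wt 0 1 1 0 (1 : K))) hstar
      rw [← smul_eq_C_mul, map_smul, smul_eq_mul] at h1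
      have h2 : v (b * lin (wt 0 1 1 0 (1 : K))
          (Φ (Matrix.of fun i j => P (x i) (x j)).det)) ≤ 1 := by
        rw [h1, map_sum]
        refine v.map_sum_le fun i _ => ?_
        rw [map_sum]
        refine v.map_sum_le fun j _ => ?_
        refine lin_le_one v (mul_mem (mul_mem ?_ (hgen _)) ?_)
        · intro m
          refine ⟨?_, fun h => by simp at h⟩
          have h3 := (hgen (x i) (Finsupp.single 0 1 + m)).1
          rw [coeff_pderiv', nsmul_eq_mul, map_mul, v.map_one, one_pow, mul_one]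
          rw [v.map_one, one_pow, mul_one] at h3
          exact mul_le_one' (v_nat_le v hC _) h3
        · intro m
          refine ⟨?_, fun h => by simp at h⟩
          have h3 := (hgen (x j) (Finsupp.single 1 1 + m)).1
          rw [coeff_pderiv', nsmul_eq_mul, map_mul, v.map_one, one_pow, mul_one]
          rw [v.map_one, one_pow, mul_one] at h3
          exact mul_le_one' (v_nat_le v hC _) h3
      rwa [map_mul, hdet1, mul_one] at h2
    · have h3 := (hgen r m).1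
      rw [map_one, one_pow, mul_one] at h3 ⊢
      exact h3
  · -- chain
    have hγ : v γ ≤ 1 := hγ1.le
    have hgen : ∀ r, Φ r ∈ Q2 v γ hγ := by
      refine forall_mem_of_generators Φ (s : Set R) hs _ ?_ ?_
      · intro c m
        rw [coeff_C]
        split_ifs with h
        · subst h
          refine ⟨?_, fun h => by simp at h⟩
          simpa using hC c
        · exact zero_mem _
      · intro r hr m
        refine ⟨hγ2 r hr m, fun h => ?_⟩
        obtain ⟨k, hk0, hk⟩ := hn r hr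
        by_contra hc
        have := sum_of_homogeneous (hΦ k r hk) hc
        exact h (by rw [this]; exact even_two_mul k)
    have hgen1 : ∀ r, Φ r ∈ Q1 v 0 1 1 1 γ := by
      refine forall_mem_of_generators Φ (s : Set R) hs _ ?_ ?_
      · intro c m
        rw [coeff_C]
        split_ifs with h
        · subst h
          refine ⟨?_, fun h => by simp at h⟩
          simpa using hC c
        · exact zero_mem _
      · intro r hr m
        have hq := hγ2 r hr m
        refine ⟨le_trans (mul_le_mul' le_rfl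
          (pow_le_pow_right_of_le_one' hγ (min_le_right _ _))) hq, fun h => ?_⟩
        rw [one_mul, one_mul] at h
        rw [min_eq_left h.le] at hq
        have e : v γ ^ m 1 = v γ ^ m 0 * v γ ^ (m 1 - m 0) := by
          rw [← pow_add]; congr 1; omega
        rw [e, ← mul_assoc]
        refine mul_lt_one_of_le_of_lt hq (pow_lt_one₀ zero_le hγ1 (by omega))
    have hLb : ∀ p : Ideal R, p.IsPrime → (∃ k, 0 < k ∧ ∃ r ∈ 𝒜 k, r ∉ p) →
        ∀ d : ℕ, (∀ k, ∀ r ∈ 𝒜 k, r ∉ p → d ∣ k) → d = 1 := by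
      intro p hp h d hd
      exact lineBundle_prime hX p h d hd
    have hnode : ∃ k, 0 < k ∧ ∃ r ∈ 𝒜 k, ∃ m : Fin 2 →₀ ℕ, m 0 = k ∧ m 1 = k ∧
        v (coeff m (Φ r)) * v γ ^ k = 1 := by
      rcases le_total (m₁ 1) (m₁ 0) with h | h
      · rw [min_eq_right h] at hm
        exact node_nonvertex v Φ hΦ hC s hs hn γ hγ1 (i := 0) (j := 1) (by decide) hγ2 r₁ hr₁
          m₁ hm hm1 h hLb
      · rw [min_eq_left h] at hm
        obtain ⟨k, hk, r, hr, m, h0, h1, h2⟩ := node_nonvertex v Φ hΦ hC s hs hn γ hγ1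
          (i := 1) (j := 0) (by decide)
          (fun r hr m => by rw [min_comm]; exact hγ2 r hr m) r₁ hr₁ m₁ hm hm0 h hLb
        exact ⟨k, hk, r, hr, m, h1, h0, h2⟩
    obtain ⟨k, hk, r, hr, m, h0, h1, h2⟩ := hnode
    have hone := wpt_one Φ 0 1 1 1 γ
    have hm1 : ∀ r, v (wpt Φ (wt 0 1 1 1 γ) r) ≤ 1 := fun r => lin_le_one v (hgen1 r)
    have hm2 : ∀ r r', v (wpt Φ (wt 0 1 1 1 γ) (r * r') -
        wpt Φ (wt 0 1 1 1 γ) r * wpt Φ (wt 0 1 1 1 γ) r') < 1 := by
      intro r r'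
      rw [wpt_apply, wpt_apply, wpt_apply, map_mul]
      exact lin_mul_sub_lt v (hgen1 r) (hgen1 r')
    have hprime := nearKer_isPrime (v := v) (h1 := hm1) (h2 := hm2) hone
    obtain ⟨N, x, hdet, hstar⟩ := hchart _ hprime (fun r hr => by
      rw [mem_nearKer, wpt_apply, hr, map_zero, map_zero]
      exact zero_lt_one) ⟨k, hk, r, hr, by
      rw [mem_nearKer, wpt_apply]
      have e := lin_wt_homogeneous (hΦ k r hr) (i := 0) (j := 1) (by decide) m
        (by omega) (by omega) γ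
      have e2 : wt 0 1 1 1 γ = wt 0 1 (m 1) (m 0) γ := by
        funext m'
        rw [wt, wt, h0, h1]
        congr 1
        apply propext
        constructor
        · intro h; rw [one_mul, one_mul] at h; rw [h]
        · intro h
          rw [one_mul, one_mul]
          exact Nat.eq_of_mul_eq_mul_left hk h
      rw [e2, e, map_mul, map_pow, h1, h2]
      exact lt_irrefl _⟩
    rw [mem_nearKer, not_lt] at hdet
    refine ⟨γ, hγ0, hγ, ?_, fun r m => (hgen r m).1⟩
    exact b_le v Φ hC hγ0 hγ hgen b _ (hskew N x) x (le_antisymm (hm1 _) hdet) hstar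

/-- The consequence used for `B = b ^ 2` and its differential. -/
theorem bound' (hX : IsContactFano 𝒜 P) [IsAlgClosed K]
    (hC : ∀ c : ℂ, v (algebraMap ℂ K c) ≤ 1)
    (Φ : R →ₐ[ℂ] MvPolynomial (Fin 2) K)
    (hΦ : ∀ k, ∀ r ∈ 𝒜 k, (Φ r).IsHomogeneous (2 * k))
    (h10 : ∀ r, v (aeval ![1, 0] (Φ r)) ≤ 1) (h01 : ∀ r, v (aeval ![0, 1] (Φ r)) ≤ 1)
    (hne : ∃ k, 0 < k ∧ ∃ r ∈ 𝒜 k, v (aeval ![0, 1] (Φ r)) = 1) (b : K)
    (hchart : ∀ p : Ideal R, p.IsPrime → (∀ r, Φ r = 0 → r ∈ p) →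
      (∃ k, 0 < k ∧ ∃ r ∈ 𝒜 k, r ∉ p) →
      ∃ (N : ℕ) (x : Fin N → R), (Matrix.of fun i j => P (x i) (x j)).det ∉ p ∧
        C b * Φ (Matrix.of fun i j => P (x i) (x j)).det =
          ∑ i, ∑ j, pderiv 0 (Φ (x i)) *
            Φ ((Matrix.of fun i j => P (x i) (x j)).adjugate i j) * pderiv 1 (Φ (x j))) :
    v b ≤ 1 ∧ ∀ r (m : Fin 2 →₀ ℕ), min (m 0) (m 1) ≤ 1 → v (b * coeff m (Φ r)) ≤ 1 := by
  obtain ⟨γ, hγ0, hγ1, hb, h⟩ := bound v hX hC Φ hΦ h10 h01 hne b hchart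
  refine ⟨hb.trans hγ1, fun r m hm => ?_⟩
  rw [map_mul, mul_comm]
  rcases Nat.eq_zero_or_pos (min (m 0) (m 1)) with h0 | h0
  · have h1 := h r m
    rw [h0, pow_zero, mul_one] at h1
    exact mul_le_one' h1 (hb.trans hγ1)
  · have h1 := h r m
    rw [show min (m 0) (m 1) = 1 by omega, pow_one] at h1
    exact le_trans (mul_le_mul' le_rfl hb) h1

end final

end Vale.Agent.P292.LS
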