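import Vale.Agent.P292.LS.Inertia

/-!
# P292, step 3: stability of the integral closure under the derivations of `R`

From trivial inertia at the height one primes to stability under all derivations preserving `R`.
-/

namespace Vale.Agent.P292.Inertia

open Polynomial

universe u v w

/-! ### Part 4 -/

/-- an element separated from its conjugates modulo a prime with trivial inertia. -/
theorem exists_theta {k S G : Type*} [Field k] [Infinite k] [CommRing S] [Algebra k S]
    [Group G] [Finite G] [MulSemiringAction G S] [SMulCommClass G k S] (P : Ideal S)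
    (h : ∀ g : G, g ≠ 1 → ∃ x : S, g • x - x ∉ P) :
    ∃ θ : S, ∀ g : G, g ≠ 1 → g • θ - θ ∉ P := by
  classical
  let V : {g : G // g ≠ 1} → Submodule k S := fun g =>
    { carrier := {x | g.1 • x - x ∈ P}
      zero_mem' := by simp
      add_mem' := by
        intro a b ha hb
        change g.1 • (a + b) - (a + b) ∈ P
        have : g.1 • (a + b) - (a + b) = (g.1 • a - a) + (g.1 • b - b) := by
          rw [smul_add]; ring
        rw [this]
        exact P.add_mem ha hb
      smul_mem' := by
        intro c a ha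
        change g.1 • (c • a) - c • a ∈ P
        rw [smul_comm, ← smul_sub, Algebra.smul_def]
        exact P.mul_mem_left _ ha }
  obtain ⟨θ, hθ⟩ := Submodule.exists_forall_notMem_of_forall_ne_top V (by
    rintro ⟨g, hg⟩ htop
    obtain ⟨x, hx⟩ := h g hg
    have : x ∈ V ⟨g, hg⟩ := by rw [htop]; trivial
    exact hx this)
  exact ⟨θ, fun g hg => hθ ⟨g, hg⟩⟩

section lagrange

variable {R S G : Type*} [CommRing R] [CommRing S] [Algebra R S] [Group G]
  [Fintype G] [DecidableEq G] [MulSemiringAction G S] [Algebra.IsInvariant R S G]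

omit [Fintype G] [DecidableEq G] in
/-- polynomials with invariant coefficients come from `R`. -/
theorem exists_of_invariant (p : S[X])
    (hp : ∀ g : G, p.map (MulSemiringAction.toRingHom G S g) = p) :
    ∃ q : R[X], q.map (algebraMap R S) = p := by
  have : p ∈ Polynomial.lifts (algebraMap R S) := by
    rw [Polynomial.lifts_iff_coeff_lifts]
    intro n
    obtain ⟨a, ha⟩ := Algebra.IsInvariant.isInvariant (A := R) (G := G) (p.coeff n) (by
      intro g
      have := congrArg (fun r => r.coeff n) (hp g)
      rw [coeff_map] at this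
      exact this)
    exact ⟨a, ha⟩
  rw [Polynomial.mem_lifts] at this
  exact this

/-- Lagrange interpolation: `u x` is a polynomial in `θ` with coefficients in `R`. -/
theorem exists_lagrange (θ x : S) :
    ∃ q : R[X], aeval θ q = (∏ h ∈ Finset.univ.erase (1 : G), (θ - h • θ)) * x := by
  obtain ⟨q, hq⟩ := exists_of_invariant (R := R) (G := G)
    (∑ g : G, C (g • x) * ∏ h ∈ Finset.univ.erase g, (X - C (h • θ))) (by
    intro k
    rw [Polynomial.map_sum]
    refine Fintype.sum_equiv (Equiv.mulLeft k) _ _ fun g => ?_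
    rw [Polynomial.map_mul, Polynomial.map_C, Polynomial.map_prod]
    congr 1
    · congr 1
      rw [Equiv.coe_mulLeft, mul_smul]
      rfl
    · refine Finset.prod_bij (fun h _ => k * h) ?_ ?_ ?_ ?_
      · intro h hh
        rw [Finset.mem_erase] at hh ⊢
        exact ⟨fun he => hh.1 (mul_left_cancel he), Finset.mem_univ _⟩
      · intro a _ b _ hab
        exact mul_left_cancel hab
      · intro b hb
        refine ⟨k⁻¹ * b, ?_, mul_inv_cancel_left k b⟩
        rw [Finset.mem_erase] at hb ⊢
        refine ⟨fun he => hb.1 ?_, Finset.mem_univ _⟩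
        rw [← he]
        exact (mul_inv_cancel_left k b).symm
      · intro h _
        rw [Polynomial.map_sub, Polynomial.map_X, Polynomial.map_C, mul_smul]
        rfl)
  refine ⟨q, ?_⟩
  have h1 : aeval θ q = eval θ (q.map (algebraMap R S)) := by
    rw [eval_map, aeval_def]
  rw [h1, hq, eval_finsetSum, Finset.sum_eq_single (1 : G)]
  · rw [eval_mul, eval_C, one_smul, eval_prod, mul_comm]
    congr 1
    refine Finset.prod_congr rfl fun h _ => ?_
    rw [eval_sub, eval_X, eval_C]
  · intro g _ hg
    rw [eval_mul, eval_prod, Finset.prod_eq_zero (i := 1), mul_zero]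
    · exact Finset.mem_erase.2 ⟨hg.symm, Finset.mem_univ _⟩
    · rw [eval_sub, eval_X, eval_C, one_smul, sub_self]
  · intro h
    exact absurd (Finset.mem_univ _) h

/-- the characteristic polynomial of `θ`. -/
theorem exists_char (θ : S) :
    ∃ f : R[X], aeval θ f = 0 ∧
      aeval θ (derivative f) = ∏ h ∈ Finset.univ.erase (1 : G), (θ - h • θ) := by
  obtain ⟨f, hf⟩ := exists_of_invariant (R := R) (G := G) (∏ g : G, (X - C (g • θ))) (by
    intro k
    rw [Polynomial.map_prod]
    refine Fintype.prod_equiv (Equiv.mulLeft k) _ _ fun g => ?_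
    rw [Polynomial.map_sub, Polynomial.map_X, Polynomial.map_C, Equiv.coe_mulLeft, mul_smul]
    rfl)
  refine ⟨f, ?_, ?_⟩
  · have h1 : aeval θ f = eval θ (f.map (algebraMap R S)) := by
      rw [eval_map, aeval_def]
    rw [h1, hf, eval_prod, Finset.prod_eq_zero (i := 1) (Finset.mem_univ _)]
    rw [eval_sub, eval_X, eval_C, one_smul, sub_self]
  · have h1 : aeval θ (derivative f) = eval θ (derivative (f.map (algebraMap R S))) := by
      rw [derivative_map, eval_map, aeval_def]
    rw [h1, hf, derivative_prod_finset, eval_finsetSum, Finset.sum_eq_single (1 : G)]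
    · simp only [derivative_sub, derivative_X, derivative_C, sub_zero, mul_one]
      rw [eval_prod]
      refine Finset.prod_congr rfl fun h _ => ?_
      rw [eval_sub, eval_X, eval_C]
    · intro g _ hg
      rw [eval_mul, eval_prod, Finset.prod_eq_zero (i := 1), zero_mul]
      · exact Finset.mem_erase.2 ⟨hg.symm, Finset.mem_univ _⟩
      · rw [eval_sub, eval_X, eval_C, one_smul, sub_self]
    · intro h
      exact absurd (Finset.mem_univ _) h

end lagrange

/-- derivations and a prime with trivial inertia. -/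
theorem local_stable {R S L G : Type*} [CommRing R] [CommRing S] [CommRing L]
    [Algebra R S] [Algebra S L] [Algebra R L] [IsScalarTower R S L]
    [Group G] [Fintype G] [DecidableEq G] [MulSemiringAction G S] [Algebra.IsInvariant R S G]
    (P : Ideal S) [P.IsPrime] (θ : S) (hθ : ∀ g : G, g ≠ 1 → g • θ - θ ∉ P)
    (D : L →+ L) (hD : ∀ x y, D (x * y) = x * D y + y * D x)
    (DR : R → R) (hDR : ∀ r, D (algebraMap R L r) = algebraMap R L (DR r)) :
    ∃ v : S, v ∉ P ∧ ∀ x : S, ∃ y : S,
      algebraMap S L v * D (algebraMap S L x) = algebraMap S L y := by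
  set u : S := ∏ h ∈ Finset.univ.erase (1 : G), (θ - h • θ) with hu
  have huP : u ∉ P := by
    intro h
    rw [hu] at h
    obtain ⟨g, hg, hgP⟩ := (Ideal.IsPrime.prod_mem_iff (p := P)).1 h
    rw [Finset.mem_erase] at hg
    apply hθ g hg.1
    rw [← neg_sub]
    exact P.neg_mem hgP
  obtain ⟨f, hf, hf'⟩ := exists_char (R := R) (G := G) θ
  rw [← hu] at hf'
  -- values of polynomials
  have hval : ∀ q : R[X], ∃ y : S, D (algebraMap S L (aeval θ q)) =
      algebraMap S L y + algebraMap S L (aeval θ (derivative q)) * D (algebraMap S L θ) := by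
    intro q
    have := d_eval₂ (algebraMap R L) (algebraMap S L θ) D hD q
    have e1 : ∀ q : R[X], q.eval₂ (algebraMap R L) (algebraMap S L θ) =
        algebraMap S L (aeval θ q) := by
      intro q
      rw [aeval_def, hom_eval₂, IsScalarTower.algebraMap_eq R S L]
    rw [e1, e1] at this
    refine ⟨q.sum fun k a => θ ^ k * algebraMap R S (DR a), ?_⟩
    rw [this, Polynomial.sum_def, Polynomial.sum_def, map_sum]
    congr 1
    refine Finset.sum_congr rfl fun k _ => ?_
    rw [map_mul, map_pow, hDR, ← IsScalarTower.algebraMap_apply R S L]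
  -- the derivative of `θ`
  obtain ⟨t, ht⟩ : ∃ t : S, algebraMap S L u * D (algebraMap S L θ) = algebraMap S L t := by
    obtain ⟨y, hy⟩ := hval f
    rw [hf, hf', map_zero, map_zero] at hy
    refine ⟨-y, ?_⟩
    rw [map_neg]
    linear_combination -hy
  have hval2 : ∀ q : R[X], ∃ y : S,
      algebraMap S L u * D (algebraMap S L (aeval θ q)) = algebraMap S L y := by
    intro q
    obtain ⟨y, hy⟩ := hval q
    refine ⟨u * y + aeval θ (derivative q) * t, ?_⟩
    rw [hy, map_add, map_mul, map_mul, ← ht]
    ring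
  obtain ⟨q₁, hq₁⟩ := exists_lagrange (R := R) (G := G) θ (1 : S)
  rw [← hu, mul_one] at hq₁
  obtain ⟨y₁, hy₁⟩ := hval2 q₁
  rw [hq₁] at hy₁
  refine ⟨u * u, fun h => huP ((Ideal.IsPrime.mem_or_mem ‹P.IsPrime› h).elim id id), ?_⟩
  intro x
  obtain ⟨q, hq⟩ := exists_lagrange (R := R) (G := G) θ x
  rw [← hu] at hq
  obtain ⟨y, hy⟩ := hval2 q
  rw [hq, map_mul, hD] at hy
  refine ⟨y - x * y₁, ?_⟩
  rw [map_sub, map_mul, map_mul, ← hy, ← hy₁]
  ring

/-! ### Part 5 -/

/-- `P` contains no nonzero prime ideal different from `P`. -/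
def HtOne {R : Type*} [CommRing R] (P : Ideal R) : Prop :=
  ∀ P' : Ideal R, P'.IsPrime → P' < P → P' = ⊥

/-- elements of the fraction field which are integral at all height one primes. -/
theorem mem_of_htOne {S L : Type*} [CommRing S] [IsDomain S] [IsNoetherianRing S] [Field L]
    [Algebra S L] [IsFractionRing S L] [IsIntegrallyClosed S] (y : L)
    (h : ∀ P : Ideal S, P.IsPrime → P ≠ ⊥ → HtOne P →
      ∃ v : S, v ∉ P ∧ ∃ a : S, algebraMap S L v * y = algebraMap S L a) :
    ∃ a : S, y = algebraMap S L a := by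
  classical
  by_contra hy
  have hinj : Function.Injective (algebraMap S L) := IsFractionRing.injective S L
  -- conductors
  let I : L → Ideal S := fun z =>
    { carrier := {s | ∃ a : S, algebraMap S L s * z = algebraMap S L a}
      zero_mem' := ⟨0, by simp⟩
      add_mem' := by
        rintro s t ⟨a, ha⟩ ⟨b, hb⟩
        exact ⟨a + b, by rw [map_add, add_mul, ha, hb, map_add]⟩
      smul_mem' := by
        rintro c s ⟨a, ha⟩
        exact ⟨c * a, by rw [smul_eq_mul, map_mul, mul_assoc, ha, map_mul]⟩ }
  have hI : ∀ z s, s ∈ I z ↔ ∃ a : S, algebraMap S L s * z = algebraMap S L a :=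
    fun z s => Iff.rfl
  have hI1 : ∀ z, (¬ ∃ a : S, z = algebraMap S L a) → (1 : S) ∉ I z := by
    intro z hz h1
    rw [hI, map_one, one_mul] at h1
    exact hz h1
  -- a maximal conductor
  let 𝒮 : Set (Ideal S) := {J | ∃ t : S, (¬ ∃ a : S, algebraMap S L t * y = algebraMap S L a) ∧
    J = I (algebraMap S L t * y)}
  have hne : 𝒮.Nonempty := ⟨_, 1, by rwa [map_one, one_mul], rfl⟩
  obtain ⟨q, ⟨t, ht, rfl⟩, hmax⟩ := set_has_maximal_iff_noetherian.2
    (inferInstance : IsNoetherian S S) 𝒮 hne
  set z : L := algebraMap S L t * y with hz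
  have hz1 : ¬ ∃ a : S, z = algebraMap S L a := ht
  have hqtop : (1 : S) ∉ I z := hI1 z hz1
  have hqprime : (I z).IsPrime := by
    rw [Ideal.isPrime_iff]
    refine ⟨fun h => hqtop (by rw [h]; trivial), ?_⟩
    intro a b hab
    by_contra hcon
    push Not at hcon
    have hb : ¬ ∃ c : S, algebraMap S L (b * t) * y = algebraMap S L c := by
      rintro ⟨c, hc⟩
      apply hcon.2
      rw [hI]
      exact ⟨c, by rw [← hc, hz, map_mul]; ring⟩
    have hle : I z < I (algebraMap S L (b * t) * y) := by
      refine lt_of_le_of_ne ?_ ?_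
      · rintro s ⟨c, hc⟩
        refine ⟨b * c, ?_⟩
        rw [map_mul, map_mul, ← hc, hz]
        ring
      · intro he
        apply hcon.1
        rw [he]
        obtain ⟨c, hc⟩ := hab
        refine ⟨c, ?_⟩
        rw [← hc, hz, map_mul, map_mul]
        ring
    exact hmax _ ⟨b * t, hb, rfl⟩ hle
  have hq0 : I z ≠ ⊥ := by
    obtain ⟨a, s, hs, hz'⟩ := IsFractionRing.div_surjective (A := S) z
    intro h0
    have : s ∈ I z := by
      rw [hI]
      refine ⟨a, ?_⟩
      rw [← hz', mul_div_cancel₀]
      exact fun h0 => nonZeroDivisors.ne_zero hs (hinj (by rw [h0, map_zero]))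
    rw [h0, Ideal.mem_bot] at this
    exact nonZeroDivisors.ne_zero hs this
  -- `z` is not almost integral
  have hnint : ∀ c : S, c ≠ 0 → ¬ ∀ n : ℕ, ∃ a : S, algebraMap S L c * z ^ n = algebraMap S L a := by
    intro c hc hn
    apply hz1
    have hint : IsIntegral S z := by
      apply IsAlmostIntegral.isIntegral
      refine ⟨c, mem_nonZeroDivisors_of_ne_zero hc, fun n => ?_⟩
      obtain ⟨a, ha⟩ := hn n
      exact ⟨a, by rw [Algebra.smul_def, ha]⟩
    obtain ⟨a, ha⟩ := IsIntegrallyClosed.isIntegral_iff.1 hint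
    exact ⟨a, ha.symm⟩
  -- powers
  have hpow : ∀ J : Ideal S, J ≤ I z →
      (∀ s ∈ J, ∀ a : S, algebraMap S L s * z = algebraMap S L a → a ∈ J) → J = ⊥ := by
    intro J hJ hst
    by_contra hJ0
    obtain ⟨c, hcJ, hc0⟩ := Submodule.exists_mem_ne_zero_of_ne_bot hJ0
    apply hnint c hc0
    have : ∀ n : ℕ, ∃ a ∈ J, algebraMap S L c * z ^ n = algebraMap S L a := by
      intro n
      induction n with
      | zero => exact ⟨c, hcJ, by rw [pow_zero, mul_one]⟩
      | succ n ih =>
        obtain ⟨a, haJ, ha⟩ := ih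
        obtain ⟨b, hb⟩ := (hI z a).1 (hJ haJ)
        exact ⟨b, hst a haJ b hb, by rw [pow_succ, ← mul_assoc, ha, hb]⟩
    exact fun n => (this n).imp fun a ha => ha.2
  obtain ⟨s₀, hs₀, u, hu, huq⟩ : ∃ s₀ ∈ I z, ∃ u : S,
      algebraMap S L s₀ * z = algebraMap S L u ∧ u ∉ I z := by
    by_contra hcon
    push Not at hcon
    exact hq0 (hpow (I z) le_rfl hcon)
  have hht : HtOne (I z) := by
    intro P' hP' hlt
    have hs₀P : s₀ ∉ P' := by
      intro hmem
      apply not_le_of_gt hlt
      intro s hs
      obtain ⟨a, ha⟩ := (hI z s).1 hs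
      have h1 : s * u = s₀ * a := by
        apply hinj
        rw [map_mul, map_mul, ← hu, ← ha]
        ring
      have h2 : s * u ∈ P' := by
        rw [h1]
        exact P'.mul_mem_right _ hmem
      exact (hP'.mem_or_mem h2).resolve_right fun h => huq (hlt.le h)
    refine hpow P' hlt.le fun s hs a ha => ?_
    have h1 : s * u = s₀ * a := by
      apply hinj
      rw [map_mul, map_mul, ← hu, ← ha]
      ring
    have h2 : s₀ * a ∈ P' := by
      rw [← h1]
      exact P'.mul_mem_right _ hs
    exact (hP'.mem_or_mem h2).resolve_left hs₀P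
  obtain ⟨v, hv, a, ha⟩ := h (I z) hqprime hq0 hht
  apply hv
  refine ⟨t * a, ?_⟩
  rw [map_mul, ← ha, hz]
  ring

/-- height one primes of an integral extension lie over height one primes. -/
theorem htOne_comap {R S G : Type*} [CommRing R] [IsDomain R] [CommRing S] [IsDomain S]
    [Algebra R S] [Group G] [Finite G] [MulSemiringAction G S] [Algebra.IsInvariant R S G]
    [SMulCommClass G R S] [Algebra.IsIntegral R S] [FaithfulSMul R S] (P : Ideal S) [P.IsPrime]
    (hP : HtOne P) : HtOne (P.comap (algebraMap R S)) := by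
  intro p' hp' hlt
  by_contra hp0
  have hinj : Function.Injective (algebraMap R S) := FaithfulSMul.algebraMap_injective R S
  obtain ⟨Q, -, hQ, hQp⟩ := Ideal.exists_ideal_over_prime_of_isIntegral p' (⊥ : Ideal S) (by
    rw [Ideal.comap_bot_of_injective _ hinj]
    exact bot_le)
  obtain ⟨g, hg⟩ := exists_smul_le (R := R) (G := G) Q P (by
    intro r hr
    have : r ∈ p' := by
      rw [← hQp]
      exact hr
    exact hlt.le this)
  -- the conjugate of `Q`
  set Q' : Ideal S := Q.comap (MulSemiringAction.toRingHom G S g⁻¹) with hQ'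
  have hmem : ∀ x : S, x ∈ Q' ↔ g⁻¹ • x ∈ Q := fun x => Iff.rfl
  have hQ'P : Q' ≤ P := by
    intro x hx
    have := hg _ ((hmem x).1 hx)
    rwa [smul_inv_smul] at this
  have hR : ∀ r : R, algebraMap R S r ∈ Q' ↔ r ∈ p' := by
    intro r
    rw [hmem, smul_algebraMap, ← hQp]
    rfl
  have hQ'prime : Q'.IsPrime := by
    rw [hQ']
    infer_instance
  have hne : Q' ≠ P := by
    rintro rfl
    apply hlt.ne
    ext r
    rw [← hR]
    rfl
  have h0 := hP Q' hQ'prime (lt_of_le_of_ne hQ'P hne)
  apply hp0
  rw [eq_bot_iff]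
  intro r hr
  rw [Ideal.mem_bot]
  have h1 := (hR r).2 hr
  rw [h0, Ideal.mem_bot] at h1
  exact hinj (by rw [h1, map_zero])

/-- **Step 3.** If all conjugates of a generating set `B` are determined by their 1-jets along
curves meeting every height one prime, then the integral closure is stable under all derivations
which preserve `R`. -/
theorem stable_of_jetLine {R S L G k ι : Type*} [CommRing R] [IsDomain R]
    [IsIntegrallyClosed R] [CharZero R] [CommRing S] [IsDomain S] [IsNoetherianRing S]
    [IsIntegrallyClosed S] [Field L] [Algebra R S] [Algebra S L] [IsFractionRing S L]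
    [Algebra R L] [IsScalarTower R S L] [FaithfulSMul R S] [Algebra.IsIntegral R S]
    [Field k] [Infinite k] [Algebra k S]
    [Group G] [Finite G] [MulSemiringAction G S] [MulSemiringAction G L]
    [SMulCommClass G k S] [SMulCommClass G R S] [Algebra.IsInvariant R S G]
    (hG : ∀ (g : G) (x : S), algebraMap S L (g • x) = g • algebraMap S L x)
    (E : ι → L →+ L) (hE : ∀ j x y, E j (x * y) = x * E j y + y * E j x)
    (hEG : ∀ j (g : G) x, E j (g • x) = g • E j x)
    (ER : ι → R → R) (hER : ∀ j r, E j (algebraMap R L r) = algebraMap R L (ER j r))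
    {B : Set S} (hB : ∀ (g : G), ∀ b ∈ B, g • b ∈ B)
    (hBE : ∀ b ∈ B, ∀ j, ∃ e : S, E j (algebraMap S L b) = algebraMap S L e)
    (hgen : ∀ g : G, (∀ b ∈ B, g • b = b) → g = 1)
    (hline : ∀ P : Ideal S, P.IsPrime → P ≠ ⊥ → HtOne P →
      (∀ g : G, g ≠ 1 → ∃ x : S, g • x - x ∉ P) ∨
        Nonempty (JetLine.{u} ER B (P.comap (algebraMap R S))))
    (D : L →+ L) (hD : ∀ x y, D (x * y) = x * D y + y * D x)
    (DR : R → R) (hDR : ∀ r, D (algebraMap R L r) = algebraMap R L (DR r)) (x : S) :
    ∃ y : S, D (algebraMap S L x) = algebraMap S L y := by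
  classical
  have := Fintype.ofFinite G
  have hinj : Function.Injective (algebraMap S L) := IsFractionRing.injective S L
  refine mem_of_htOne (S := S) _ fun P hP hP0 hPht => ?_
  obtain ⟨θ, hθ⟩ := exists_theta (k := k) (G := G) P (by
    rcases hline P hP hP0 hPht with h1 | ⟨⟨J⟩⟩
    · exact h1
    · intro g hg
      by_contra hcon
      push Not at hcon
      exact hg (hgen g fun b hb => inertia_fix hinj hG E hE hEG ER hER hB hBE P
        (fun r hr => hr) J g hcon b hb))
  obtain ⟨v, hv, hvx⟩ := local_stable (R := R) (L := L) P θ hθ D hD DR hDR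
  exact ⟨v, hv, hvx x⟩

/-! ### The Galois case -/

/-- a derivation is determined by its values on `R`. -/
theorem der_unique {R L : Type*} [CommRing R] [IsDomain R] [IsIntegrallyClosed R] [CharZero R]
    [Field L] [Algebra R L] [Module.IsTorsionFree R L] [Algebra.IsAlgebraic R L]
    (D : L →+ L) (hD : ∀ x y, D (x * y) = x * D y + y * D x)
    (hDR : ∀ r : R, D (algebraMap R L r) = 0) (x : L) : D x = 0 := by
  have hint : ∀ c : L, IsIntegral R c → D c = 0 := by
    intro c hc
    obtain ⟨f, hf, hf'⟩ := exists_sep hc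
    have := d_eval₂ (algebraMap R L) c D hD f
    rw [← aeval_def, hf, map_zero, ← aeval_def, Polynomial.sum_def,
      Finset.sum_eq_zero (fun k _ => by rw [hDR, mul_zero]), zero_add] at this
    exact (mul_eq_zero.1 this.symm).resolve_left hf'
  obtain ⟨r, hr, hint'⟩ :=
    (Algebra.IsAlgebraic.isAlgebraic (R := R) x).exists_integral_multiple
  have h1 := hint _ hint'
  rw [Algebra.smul_def, hD, hDR, mul_zero, add_zero] at h1
  refine (mul_eq_zero.1 h1).resolve_left fun h => hr ?_
  exact FaithfulSMul.algebraMap_injective R L (by rw [h, map_zero])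

end Vale.Agent.P292.Inertia
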