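import Vale.Agent.P292.Bdl.B4

/-! Frames at nonvertex points: the differential of any function is a combination of the
Hamiltonian vector fields (Kähler differentials version), and the chart formula for derivations
along a homomorphism. -/

namespace Vale.Agent.P292

open Module
open scoped KaehlerDifferential Pointwise

universe u v

variable {R : Type u} [CommRing R] [Algebra ℂ R] {𝒜 : ℕ → Submodule ℂ R} [GradedAlgebra 𝒜]
  {P : R →ₗ[ℂ] R →ₗ[ℂ] R}

/-- The pair of a function `δ` and a family `y` is a chart if on the open set `δ ≠ 0` the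
Hamiltonian derivations of the `y j` span all derivations. -/
def IsChart (P : R →ₗ[ℂ] R →ₗ[ℂ] R) {N : ℕ} (y : Fin N → R) (δ : R) : Prop :=
  ∃ a : Fin N → Ω[R⁄ℂ], ∀ r, δ • KaehlerDifferential.D ℂ R r = ∑ j, P (y j) r • a j

/-- There is a chart at every nonvertex point. -/
theorem exists_isChart_at (hX : IsContactFano 𝒜 P) {p : R →ₐ[ℂ] ℂ} (hp : ¬ IsVertex 𝒜 p) :
    ∃ (N : ℕ) (y : Fin N → R) (δ : R), p δ ≠ 0 ∧ IsChart P y δ := by
  classical
  obtain ⟨N, x, y, hx, hxy, hgen⟩ := exists_dual_bases_at hX hp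
  have hft := hX.finiteType
  set 𝔪 : Ideal R := RingHom.ker p with h𝔪
  let Dd := KaehlerDifferential.D ℂ R
  let W : Submodule R Ω[R⁄ℂ] := Submodule.span R (Set.range fun i => Dd (x i))
  have hsq : ∀ z ∈ 𝔪 ^ 2, Dd z ∈ 𝔪 • (⊤ : Submodule R Ω[R⁄ℂ]) := by
    intro z hz
    rw [sq] at hz
    refine Submodule.mul_induction_on (C := fun z => Dd z ∈ 𝔪 • (⊤ : Submodule R Ω[R⁄ℂ])) hz ?_ ?_
    · intro a ha b hb
      rw [Derivation.leibniz]
      exact add_mem (Submodule.smul_mem_smul ha trivial) (Submodule.smul_mem_smul hb trivial)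
    · intro a b ha hb
      rw [map_add]
      exact add_mem ha hb
  have hle : (⊤ : Submodule R Ω[R⁄ℂ]) ≤ W ⊔ 𝔪 • ⊤ := by
    rw [← KaehlerDifferential.span_range_derivation, Submodule.span_le,
      KaehlerDifferential.span_range_derivation]
    rintro _ ⟨u, rfl⟩
    have hu : p (u - algebraMap ℂ R (p u)) = 0 := by simp
    have h1 := hsq _ (hgen _ hu)
    have h2 : Dd u = Dd (u - algebraMap ℂ R (p u) -
        ∑ i, p (P (y i) (u - algebraMap ℂ R (p u))) • x i) +
        ∑ i, p (P (y i) (u - algebraMap ℂ R (p u))) • Dd (x i) := by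
      rw [map_sub, map_sub, Derivation.map_algebraMap, sub_zero, map_sum]
      simp only [Derivation.map_smul]
      rw [sub_add_cancel]
    change Dd u ∈ _
    rw [h2, add_comm]
    refine Submodule.add_mem_sup (sum_mem fun i _ => ?_) h1
    rw [← algebraMap_smul R]
    exact Submodule.smul_mem _ _ (Submodule.subset_span ⟨i, rfl⟩)
  obtain ⟨r, hr, hrW⟩ := Submodule.exists_sub_one_mem_and_smul_le_of_fg_of_le_sup
    (N := W) (Module.Finite.fg_top (R := R) (M := Ω[R⁄ℂ])) le_rfl hle
  have hpr : p r = 1 := by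
    have h1 : p (r - 1) = 0 := hr
    rw [map_sub, map_one, sub_eq_zero] at h1
    exact h1
  have hc : ∀ u : R, ∃ c : Fin N → R, r • Dd u = ∑ i, c i • Dd (x i) := by
    intro u
    have h1 : r • Dd u ∈ W := hrW (Submodule.smul_mem_pointwise_smul _ _ _ trivial)
    obtain ⟨c, hc⟩ := (Submodule.mem_span_range_iff_exists_fun R).1 h1
    exact ⟨c, hc.symm⟩
  choose c hc using hc
  -- the brackets as derivations
  let Py : Fin N → Derivation ℂ R R := fun j => Derivation.mk' (P (y j)) (fun a b => by
    rw [hX.leibniz, smul_eq_mul, smul_eq_mul]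
    ring)
  have hPy : ∀ j r, (Py j).liftKaehlerDifferential (Dd r) = P (y j) r := fun j r => by
    rw [Derivation.liftKaehlerDifferential_comp_D]
    rfl
  set A : Matrix (Fin N) (Fin N) R := Matrix.of fun j i => P (y j) (x i) with hA
  have hdet : p A.det = 1 := by
    have h1 : p A.det = (p.toRingHom.mapMatrix A).det := RingHom.map_det p.toRingHom A
    have h2 : p.toRingHom.mapMatrix A = 1 := by
      ext i j
      simp only [RingHom.mapMatrix_apply, Matrix.map_apply, hA, Matrix.of_apply, Matrix.one_apply]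
      exact hxy i j
    rw [h1, h2, Matrix.det_one]
  have hc2 : ∀ u j, r * P (y j) u = ∑ i, A j i * c u i := by
    intro u j
    have h1 := congrArg (Py j).liftKaehlerDifferential (hc u)
    rw [map_smul, map_sum, hPy, smul_eq_mul] at h1
    rw [h1]
    refine Finset.sum_congr rfl fun i _ => ?_
    rw [map_smul, hPy, smul_eq_mul, hA, Matrix.of_apply, mul_comm]
  have hc3 : ∀ u i, A.det * c u i = ∑ j, A.adjugate i j * (r * P (y j) u) := by
    intro u i
    have h1 : (A.adjugate * A).mulVec (c u) i = A.det * c u i := by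
      rw [Matrix.adjugate_mul, Matrix.smul_mulVec, Matrix.one_mulVec, Pi.smul_apply, smul_eq_mul]
    rw [← h1, ← Matrix.mulVec_mulVec, Matrix.mulVec, dotProduct]
    refine Finset.sum_congr rfl fun j _ => ?_
    rw [hc2]
    rfl
  refine ⟨N, y, A.det * r, by rw [map_mul, hdet, hpr, one_mul]; exact one_ne_zero,
    fun j => ∑ i, (A.adjugate i j * r) • Dd (x i), fun u => ?_⟩
  change (A.det * r) • Dd u = _
  rw [mul_smul, hc, Finset.smul_sum]
  have h1 : ∀ i, A.det • c u i • Dd (x i) =
      ∑ j, P (y j) u • (A.adjugate i j * r) • Dd (x i) := by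
    intro i
    rw [smul_smul, hc3, Finset.sum_smul]
    refine Finset.sum_congr rfl fun j _ => ?_
    rw [smul_smul]
    congr 1
    ring
  rw [Finset.sum_congr rfl fun i _ => h1 i, Finset.sum_comm]
  refine Finset.sum_congr rfl fun j _ => ?_
  rw [Finset.smul_sum]

/-- The chart formula for a derivation along a homomorphism. -/
theorem IsChart.formula {N : ℕ} {y : Fin N → R} {δ : R} (h : IsChart P y δ) {A : Type v}
    [CommRing A] [Algebra ℂ A] (φ : R →ₐ[ℂ] A) (d : R →ₗ[ℂ] A)
    (hd : ∀ a b, d (a * b) = φ a * d b + φ b * d a) :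
    ∃ g : Fin N → A, ∀ r, φ δ * d r = ∑ j, g j * φ (P (y j) r) := by
  obtain ⟨a, ha⟩ := h
  let _ : Module R A := Module.compHom A φ.toRingHom
  have hsm : ∀ (r : R) (z : A), r • z = φ r * z := fun _ _ => rfl
  have _ : IsScalarTower ℂ R A := ⟨fun c r z => by
    rw [hsm, hsm, map_smul, smul_mul_assoc]⟩
  let D' : Derivation ℂ R A := Derivation.mk' d (fun a b => by rw [hsm, hsm]; exact hd a b)
  have hD' : ∀ r, D'.liftKaehlerDifferential (KaehlerDifferential.D ℂ R r) = d r := fun r => by
    rw [Derivation.liftKaehlerDifferential_comp_D]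
    rfl
  refine ⟨fun j => D'.liftKaehlerDifferential (a j), fun r => ?_⟩
  have h1 := congrArg D'.liftKaehlerDifferential (ha r)
  rw [map_smul, map_sum, hD', hsm] at h1
  rw [h1]
  refine Finset.sum_congr rfl fun j _ => ?_
  rw [map_smul, hsm, mul_comm]

end Vale.Agent.P292
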