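import Mathlib

/-! # Closedness of the inverse of a Poisson matrix: the algebraic core. -/

open Matrix

namespace Vale.Agent.P292

/-- The derivative of the inverse of a matrix. -/
lemma ls_map_inv {F : Type*} [CommRing F] [Algebra ℂ F] {N : ℕ} {M W : Matrix (Fin N) (Fin N) F}
    (hWM : W * M = 1) (hMW : M * W = 1) (D : Derivation ℂ F F) :
    W.map D = -(W * M.map D * W) := by
  have h1 : W.map D * M + W * M.map D = 0 := by
    ext i j
    have h2 := congrArg D (congrFun (congrFun hWM i) j)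
    rw [Matrix.mul_apply, map_sum, Matrix.one_apply] at h2
    rw [Matrix.add_apply, Matrix.mul_apply, Matrix.mul_apply, Matrix.zero_apply,
      ← Finset.sum_add_distrib]
    have h3 : D (if i = j then (1 : F) else 0) = 0 := by
      split_ifs
      · exact D.map_one_eq_zero
      · exact map_zero D
    rw [h3] at h2
    rw [← h2]
    refine Finset.sum_congr rfl fun k _ => ?_
    rw [D.leibniz, Matrix.map_apply, Matrix.map_apply, smul_eq_mul, smul_eq_mul]
    ring
  have h2 : W.map D * M = -(W * M.map D) := eq_neg_of_add_eq_zero_left h1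
  calc W.map D = W.map D * (M * W) := by rw [hMW, Matrix.mul_one]
    _ = (W.map D * M) * W := by rw [Matrix.mul_assoc]
    _ = -(W * M.map D * W) := by rw [h2, Matrix.neg_mul]

/-- Leibniz rule for a bilinear form. -/
lemma ls_derivation_form {F : Type*} [CommRing F] [Algebra ℂ F] {N : ℕ}
    (W : Matrix (Fin N) (Fin N) F) (v w : Fin N → F) (D : Derivation ℂ F F) :
    D (∑ i, ∑ j, v i * W i j * w j) =
      (∑ i, ∑ j, D (v i) * W i j * w j) + (∑ i, ∑ j, v i * W.map D i j * w j) +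
        ∑ i, ∑ j, v i * W i j * D (w j) := by
  rw [map_sum, ← Finset.sum_add_distrib, ← Finset.sum_add_distrib]
  refine Finset.sum_congr rfl fun i _ => ?_
  rw [map_sum, ← Finset.sum_add_distrib, ← Finset.sum_add_distrib]
  refine Finset.sum_congr rfl fun j _ => ?_
  rw [D.leibniz, D.leibniz, Matrix.map_apply]
  simp only [smul_eq_mul]
  ring

/-- The form of an alternating matrix is alternating. -/
lemma ls_form_swap {F : Type*} [CommRing F] {N : ℕ} {W : Matrix (Fin N) (Fin N) F}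
    (hW : ∀ i j, W j i = -W i j) (v w : Fin N → F) :
    (∑ i, ∑ j, v i * W i j * w j) = -∑ i, ∑ j, w i * W i j * v j := by
  rw [Finset.sum_comm, ← Finset.sum_neg_distrib]
  refine Finset.sum_congr rfl fun i _ => ?_
  rw [← Finset.sum_neg_distrib]
  refine Finset.sum_congr rfl fun j _ => ?_
  rw [hW i j]; ring

/-- The middle term of the derivative of the form. -/
lemma ls_form_middle {F : Type*} [CommRing F] [Algebra ℂ F] {N : ℕ}
    {M W : Matrix (Fin N) (Fin N) F} (hWM : W * M = 1) (hMW : M * W = 1)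
    (hW : ∀ i j, W j i = -W i j) (T : Fin N → Fin N → Fin N → F) (D : Derivation ℂ F F)
    (u v w : Fin N → F)
    (hM : ∀ i j, D (M i j) = ∑ k, ∑ l, u k * W k l * T l i j) :
    (∑ i, ∑ j, v i * W.map D i j * w j) =
      -∑ l, ∑ i, ∑ j, (W *ᵥ u) l * (W *ᵥ v) i * (W *ᵥ w) j * T l i j := by
  have h0 : ∀ (z : Fin N → F) (l : Fin N), (∑ k, z k * W k l) = -(W *ᵥ z) l := by
    intro z l
    rw [Matrix.mulVec, dotProduct, ← Finset.sum_neg_distrib]
    refine Finset.sum_congr rfl fun k _ => ?_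
    rw [hW l k]; ring
  have h1 : ∀ i j, M.map D i j = -∑ l, (W *ᵥ u) l * T l i j := by
    intro i j
    rw [Matrix.map_apply, hM, Finset.sum_comm, ← Finset.sum_neg_distrib]
    refine Finset.sum_congr rfl fun l _ => ?_
    rw [← Finset.sum_mul, h0, neg_mul]
  rw [ls_map_inv hWM hMW D]
  have h2 : (∑ i, ∑ j, v i * (-(W * M.map D * W)) i j * w j) =
      ∑ i, ∑ j, (W *ᵥ v) i * M.map D i j * (W *ᵥ w) j := by
    have e1 : (∑ i, ∑ j, v i * (-(W * M.map D * W)) i j * w j) =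
        ∑ i, ∑ j, ∑ a, ∑ b, -(v i * (W i a * M.map D a b * W b j) * w j) := by
      refine Finset.sum_congr rfl fun i _ => Finset.sum_congr rfl fun j _ => ?_
      rw [Matrix.neg_apply, Matrix.mul_apply]
      have e2 : ∀ b, (W * M.map D) i b * W b j = ∑ a, W i a * M.map D a b * W b j := fun b => by
        rw [Matrix.mul_apply, Finset.sum_mul]
      rw [Finset.sum_congr rfl fun b _ => e2 b, Finset.sum_comm, ← Finset.sum_neg_distrib,
        Finset.mul_sum, Finset.sum_mul]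
      refine Finset.sum_congr rfl fun a _ => ?_
      rw [mul_neg, neg_mul, Finset.mul_sum, Finset.sum_mul, ← Finset.sum_neg_distrib]
    rw [e1]
    have e3 : ∀ a b, (W *ᵥ v) a * M.map D a b * (W *ᵥ w) b =
        ∑ i, ∑ j, -(v i * (W i a * M.map D a b * W b j) * w j) := by
      intro a b
      have e4 : (W *ᵥ v) a = -∑ i, v i * W i a := by rw [h0, neg_neg]
      rw [e4, Matrix.mulVec, dotProduct, neg_mul, neg_mul, Finset.sum_mul, Finset.sum_mul,
        ← Finset.sum_neg_distrib]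
      refine Finset.sum_congr rfl fun i _ => ?_
      rw [Finset.mul_sum, ← Finset.sum_neg_distrib]
      refine Finset.sum_congr rfl fun j _ => ?_
      ring
    rw [Finset.sum_congr rfl fun a _ => Finset.sum_congr rfl fun b _ => e3 a b]
    calc (∑ i, ∑ j, ∑ a, ∑ b, -(v i * (W i a * M.map D a b * W b j) * w j))
        = ∑ i, ∑ a, ∑ j, ∑ b, -(v i * (W i a * M.map D a b * W b j) * w j) :=
          Finset.sum_congr rfl fun i _ => Finset.sum_comm
      _ = ∑ i, ∑ a, ∑ b, ∑ j, -(v i * (W i a * M.map D a b * W b j) * w j) :=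
          Finset.sum_congr rfl fun i _ => Finset.sum_congr rfl fun a _ => Finset.sum_comm
      _ = ∑ a, ∑ i, ∑ b, ∑ j, -(v i * (W i a * M.map D a b * W b j) * w j) :=
          Finset.sum_comm
      _ = ∑ a, ∑ b, ∑ i, ∑ j, -(v i * (W i a * M.map D a b * W b j) * w j) :=
          Finset.sum_congr rfl fun a _ => Finset.sum_comm
  rw [h2]
  have h3 : ∀ i j, (W *ᵥ v) i * M.map D i j * (W *ᵥ w) j =
      -∑ l, (W *ᵥ u) l * (W *ᵥ v) i * (W *ᵥ w) j * T l i j := by
    intro i j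
    rw [h1, mul_neg, neg_mul, Finset.mul_sum, Finset.sum_mul]
    congr 1
    refine Finset.sum_congr rfl fun l _ => ?_
    ring
  rw [Finset.sum_congr rfl fun i _ => Finset.sum_congr rfl fun j _ => h3 i j]
  simp only [Finset.sum_neg_distrib]
  congr 1
  calc (∑ i, ∑ j, ∑ l, (W *ᵥ u) l * (W *ᵥ v) i * (W *ᵥ w) j * T l i j)
      = ∑ i, ∑ l, ∑ j, (W *ᵥ u) l * (W *ᵥ v) i * (W *ᵥ w) j * T l i j :=
        Finset.sum_congr rfl fun i _ => Finset.sum_comm
    _ = ∑ l, ∑ i, ∑ j, (W *ᵥ u) l * (W *ᵥ v) i * (W *ᵥ w) j * T l i j := Finset.sum_comm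

/-- Closedness of the inverse of a Poisson tensor: the algebraic core. -/
theorem ls_closed_core {F : Type*} [CommRing F] [Algebra ℂ F] {N : ℕ}
    {M W : Matrix (Fin N) (Fin N) F} (hWM : W * M = 1) (hMW : M * W = 1)
    (hW : ∀ i j, W j i = -W i j) (X : Fin N → F) (T : Fin N → Fin N → Fin N → F)
    (hT : ∀ i j k, T i j k + T j k i + T k i j = 0)
    (D1 D2 D3 : Derivation ℂ F F)
    (h1 : ∀ i j, D1 (M i j) = ∑ k, ∑ l, D1 (X k) * W k l * T l i j)
    (h2 : ∀ i j, D2 (M i j) = ∑ k, ∑ l, D2 (X k) * W k l * T l i j)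
    (h3 : ∀ i j, D3 (M i j) = ∑ k, ∑ l, D3 (X k) * W k l * T l i j)
    (h12 : ∀ i, D1 (D2 (X i)) = D2 (D1 (X i)))
    (h23 : ∀ i, D2 (D3 (X i)) = D3 (D2 (X i)))
    (h31 : ∀ i, D3 (D1 (X i)) = D1 (D3 (X i))) :
    D1 (∑ i, ∑ j, D2 (X i) * W i j * D3 (X j)) +
      D2 (∑ i, ∑ j, D3 (X i) * W i j * D1 (X j)) +
      D3 (∑ i, ∑ j, D1 (X i) * W i j * D2 (X j)) = 0 := by
  rw [ls_derivation_form W (fun i => D2 (X i)) (fun i => D3 (X i)) D1,
    ls_derivation_form W (fun i => D3 (X i)) (fun i => D1 (X i)) D2,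
    ls_derivation_form W (fun i => D1 (X i)) (fun i => D2 (X i)) D3,
    ls_form_middle hWM hMW hW T D1 (fun i => D1 (X i)) _ _ h1,
    ls_form_middle hWM hMW hW T D2 (fun i => D2 (X i)) _ _ h2,
    ls_form_middle hWM hMW hW T D3 (fun i => D3 (X i)) _ _ h3]
  have a1 : (∑ i, ∑ j, D2 (X i) * W i j * D1 (D3 (X j))) =
      -∑ i, ∑ j, D3 (D1 (X i)) * W i j * D2 (X j) := by
    rw [ls_form_swap hW (fun i => D2 (X i)) (fun j => D1 (D3 (X j)))]
    simp only [h31]
  have a2 : (∑ i, ∑ j, D3 (X i) * W i j * D2 (D1 (X j))) =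
      -∑ i, ∑ j, D1 (D2 (X i)) * W i j * D3 (X j) := by
    rw [ls_form_swap hW (fun i => D3 (X i)) (fun j => D2 (D1 (X j)))]
    simp only [h12]
  have a3 : (∑ i, ∑ j, D1 (X i) * W i j * D3 (D2 (X j))) =
      -∑ i, ∑ j, D2 (D3 (X i)) * W i j * D1 (X j) := by
    rw [ls_form_swap hW (fun i => D1 (X i)) (fun j => D3 (D2 (X j)))]
    simp only [h23]
  rw [a1, a2, a3]
  have b0 : (∑ l, ∑ i, ∑ j, (W *ᵥ fun i => D1 (X i)) l * (W *ᵥ fun i => D2 (X i)) i *
        (W *ᵥ fun i => D3 (X i)) j * T l i j) +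
      (∑ l, ∑ i, ∑ j, (W *ᵥ fun i => D2 (X i)) l * (W *ᵥ fun i => D3 (X i)) i *
        (W *ᵥ fun i => D1 (X i)) j * T l i j) +
      (∑ l, ∑ i, ∑ j, (W *ᵥ fun i => D3 (X i)) l * (W *ᵥ fun i => D1 (X i)) i *
        (W *ᵥ fun i => D2 (X i)) j * T l i j) = 0 := by
    have c2 : (∑ l, ∑ i, ∑ j, (W *ᵥ fun i => D2 (X i)) l * (W *ᵥ fun i => D3 (X i)) i *
          (W *ᵥ fun i => D1 (X i)) j * T l i j) =
        ∑ j, ∑ l, ∑ i, (W *ᵥ fun i => D2 (X i)) l * (W *ᵥ fun i => D3 (X i)) i *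
          (W *ᵥ fun i => D1 (X i)) j * T l i j := by
      rw [Finset.sum_congr rfl fun l _ => Finset.sum_comm, Finset.sum_comm]
    have c3 : (∑ l, ∑ i, ∑ j, (W *ᵥ fun i => D3 (X i)) l * (W *ᵥ fun i => D1 (X i)) i *
          (W *ᵥ fun i => D2 (X i)) j * T l i j) =
        ∑ i, ∑ j, ∑ l, (W *ᵥ fun i => D3 (X i)) l * (W *ᵥ fun i => D1 (X i)) i *
          (W *ᵥ fun i => D2 (X i)) j * T l i j := by
      rw [Finset.sum_comm, Finset.sum_congr rfl fun l _ => Finset.sum_comm]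
    rw [c2, c3, ← Finset.sum_add_distrib, ← Finset.sum_add_distrib]
    refine Finset.sum_eq_zero fun l _ => ?_
    rw [← Finset.sum_add_distrib, ← Finset.sum_add_distrib]
    refine Finset.sum_eq_zero fun i _ => ?_
    rw [← Finset.sum_add_distrib, ← Finset.sum_add_distrib]
    refine Finset.sum_eq_zero fun j _ => ?_
    have h := hT l i j
    linear_combination ((W *ᵥ fun i => D1 (X i)) l * (W *ᵥ fun i => D2 (X i)) i *
          (W *ᵥ fun i => D3 (X i)) j) * h
  linear_combination -b0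

end Vale.Agent.P292
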