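import Mathlib

/-! # P292: homogeneous polynomials in two variables with integral degrees (Euler operator). -/

namespace Vale.Agent.P292

open MvPolynomial

universe v

section
variable {E : Type v} [Field E]

/-- The Euler operator on `E[s, t]`. -/
noncomputable def eulS : Derivation E (MvPolynomial (Fin 2) E) (MvPolynomial (Fin 2) E) :=
  mkDerivation E X

/-- `p` is homogeneous of degree `n`, in the sense of the Euler operator (`n` may be negative). -/
def IsHomZ (p : MvPolynomial (Fin 2) E) (n : ℤ) : Prop := eulS p = (n : E) • p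

lemma coeff_eulS (p : MvPolynomial (Fin 2) E) (m : Fin 2 →₀ ℕ) :
    coeff m (eulS p) = (m.degree : E) * coeff m p := by
  classical
  induction p using MvPolynomial.induction_on' with
  | monomial k a =>
    rw [eulS, mkDerivation_monomial, Finsupp.sum_fintype _ _ (by simp)]
    rw [Finset.smul_sum, coeff_sum]
    have h : ∀ i : Fin 2, coeff m (a • (monomial (k - Finsupp.single i 1) ((k i : ℕ) : E)) •
        (X i : MvPolynomial (Fin 2) E)) = if k = m then (k i : E) * a else 0 := by
      intro i
      rw [smul_eq_mul, coeff_smul, smul_eq_mul]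
      by_cases hk : k i = 0
      · rw [hk]; simp
      · have h1 : k - Finsupp.single i 1 + Finsupp.single i 1 = k := by
          rw [tsub_add_cancel_of_le]
          rw [Finsupp.single_le_iff]
          omega
        rw [X, monomial_mul, h1, mul_one, coeff_monomial]
        split_ifs <;> ring
    rw [Finset.sum_congr rfl fun i _ => h i, coeff_monomial]
    split_ifs with hm
    · subst hm
      rw [← Finset.sum_mul, Finsupp.degree_eq_sum]
      push_cast
      ring
    · simp
  | add p q hp hq => rw [map_add, coeff_add, hp, hq, coeff_add]; ring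

variable {p q : MvPolynomial (Fin 2) E} {m n : ℤ}

lemma IsHomZ.zero (n : ℤ) : IsHomZ (0 : MvPolynomial (Fin 2) E) n := by simp [IsHomZ]

lemma IsHomZ.C (c : E) : IsHomZ (C c : MvPolynomial (Fin 2) E) 0 := by
  simp [IsHomZ, eulS]

lemma IsHomZ.one : IsHomZ (1 : MvPolynomial (Fin 2) E) 0 := by
  simp [IsHomZ]

lemma IsHomZ.X (i : Fin 2) : IsHomZ (X i : MvPolynomial (Fin 2) E) 1 := by
  simp [IsHomZ, eulS]

lemma IsHomZ.add (hp : IsHomZ p n) (hq : IsHomZ q n) : IsHomZ (p + q) n := by
  rw [IsHomZ, map_add, hp, hq, smul_add]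

lemma IsHomZ.neg (hp : IsHomZ p n) : IsHomZ (-p) n := by
  rw [IsHomZ, map_neg, hp, smul_neg]

lemma IsHomZ.sub (hp : IsHomZ p n) (hq : IsHomZ q n) : IsHomZ (p - q) n := by
  rw [sub_eq_add_neg]; exact hp.add hq.neg

lemma IsHomZ.smul (c : E) (hp : IsHomZ p n) : IsHomZ (c • p) n := by
  rw [IsHomZ, Derivation.map_smul, hp, smul_comm]

lemma IsHomZ.mul (hp : IsHomZ p m) (hq : IsHomZ q n) : IsHomZ (p * q) (m + n) := by
  rw [IsHomZ, Derivation.leibniz, hp, hq]
  push_cast
  simp only [smul_eq_mul, Algebra.smul_def]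
  simp only [map_add, algebraMap_eq]
  ring

lemma IsHomZ.sum {ι : Type*} (s : Finset ι) (f : ι → MvPolynomial (Fin 2) E)
    (h : ∀ i ∈ s, IsHomZ (f i) n) : IsHomZ (∑ i ∈ s, f i) n := by
  classical
  induction s using Finset.induction_on with
  | empty => simpa using IsHomZ.zero n
  | insert a s ha ih =>
    rw [Finset.sum_insert ha]
    exact (h a (Finset.mem_insert_self _ _)).add
      (ih fun i hi => h i (Finset.mem_insert_of_mem hi))

lemma IsHomZ.prod {ι : Type*} (s : Finset ι) (f : ι → MvPolynomial (Fin 2) E) (d : ι → ℤ)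
    (h : ∀ i ∈ s, IsHomZ (f i) (d i)) : IsHomZ (∏ i ∈ s, f i) (∑ i ∈ s, d i) := by
  classical
  induction s using Finset.induction_on with
  | empty => simpa using IsHomZ.one
  | insert a s ha ih =>
    rw [Finset.prod_insert ha, Finset.sum_insert ha]
    exact (h a (Finset.mem_insert_self _ _)).mul
      (ih fun i hi => h i (Finset.mem_insert_of_mem hi))

/-- quotients of homogeneous polynomials are homogeneous. -/
lemma IsHomZ.of_mul_right (hp : p ≠ 0) (hpm : IsHomZ p m) (h : IsHomZ (q * p) (n + m)) :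
    IsHomZ q n := by
  rw [IsHomZ, Derivation.leibniz, hpm] at h
  have h1 : (eulS q - (n : E) • q) * p = 0 := by
    push_cast at h
    simp only [smul_eq_mul, Algebra.smul_def, map_add, algebraMap_eq] at h ⊢
    linear_combination h
  rcases mul_eq_zero.1 h1 with h2 | h2
  · exact sub_eq_zero.1 h2
  · exact absurd h2 hp

lemma isHomZ_det {N : ℕ} (M : Matrix (Fin N) (Fin N) (MvPolynomial (Fin 2) E))
    (α β : Fin N → ℤ) (h : ∀ i j, IsHomZ (M i j) (α i + β j)) :
    IsHomZ M.det (∑ i, α i + ∑ j, β j) := by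
  rw [Matrix.det_apply]
  refine IsHomZ.sum _ _ fun σ _ => ?_
  have h1 : IsHomZ (∏ i, M (σ i) i) (∑ i, (α (σ i) + β i)) :=
    IsHomZ.prod _ _ _ fun i _ => h _ _
  rw [Finset.sum_add_distrib, Equiv.sum_comp σ α] at h1
  rcases Int.units_eq_one_or (Equiv.Perm.sign σ) with h2 | h2
  · rw [h2, one_smul]; exact h1
  · rw [h2, Units.neg_smul, one_smul]; exact h1.neg

lemma isHomZ_adjugate {N : ℕ} (M : Matrix (Fin N) (Fin N) (MvPolynomial (Fin 2) E))
    (α β : Fin N → ℤ) (h : ∀ i j, IsHomZ (M i j) (α i + β j)) (i j : Fin N) :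
    IsHomZ (M.adjugate i j) (∑ i, α i + ∑ j, β j - α j - β i) := by
  classical
  rw [Matrix.adjugate_apply]
  have h1 := isHomZ_det (M.updateRow j (Pi.single i 1)) (Function.update α j (-β i)) β
    (fun k l => by
      by_cases hk : k = j
      · subst hk
        rw [Matrix.updateRow_self, Function.update_self]
        by_cases hl : l = i
        · subst hl; rw [Pi.single_eq_same, neg_add_cancel]; exact IsHomZ.one
        · rw [Pi.single_eq_of_ne hl]; exact IsHomZ.zero _
      · rw [Matrix.updateRow_ne hk, Function.update_of_ne hk]; exact h k l)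
  rw [Finset.sum_update_of_mem (Finset.mem_univ j)] at h1
  have h2 : ∑ i, α i = α j + ∑ i ∈ Finset.univ \ {j}, α i := by
    rw [← Finset.sum_sdiff (Finset.subset_univ {j}), Finset.sum_singleton, add_comm]
  rw [h2]
  convert h1 using 1
  ring

end

section
variable {E : Type v} [Field E] [CharZero E] {p : MvPolynomial (Fin 2) E} {n : ℤ}

lemma isHomZ_iff_coeff : IsHomZ p n ↔ ∀ m : Fin 2 →₀ ℕ, coeff m p ≠ 0 → (m.degree : ℤ) = n := by
  constructor
  · intro h m hm
    have h1 := congrArg (coeff m) h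
    rw [coeff_eulS, coeff_smul, smul_eq_mul] at h1
    have h2 := mul_right_cancel₀ hm h1
    exact_mod_cast h2
  · intro h
    rw [IsHomZ]
    ext m
    rw [coeff_eulS, coeff_smul, smul_eq_mul]
    by_cases hm : coeff m p = 0
    · rw [hm, mul_zero, mul_zero]
    · rw [← h m hm]; push_cast; rfl

lemma isHomZ_of_isHomogeneous {n : ℕ} (h : p.IsHomogeneous n) : IsHomZ p n := by
  rw [isHomZ_iff_coeff]
  intro m hm
  by_contra h1
  exact hm (h.coeff_eq_zero (fun h2 => h1 (by exact_mod_cast h2)))

lemma IsHomZ.isHomogeneous {n : ℕ} (h : IsHomZ p n) : p.IsHomogeneous n := by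
  rw [isHomZ_iff_coeff] at h
  intro m hm
  have := h m hm
  have h2 : (Finsupp.weight 1) m = m.degree := by
    rw [Finsupp.degree_eq_weight_one]
    rfl
  rw [h2]
  exact_mod_cast this

lemma IsHomZ.eq_zero_of_neg (h : IsHomZ p n) (hn : n < 0) : p = 0 := by
  rw [isHomZ_iff_coeff] at h
  ext m
  rw [coeff_zero]
  by_contra h1
  have := h m h1
  omega

lemma IsHomZ.eq_C (h : IsHomZ p 0) : p = MvPolynomial.C (coeff 0 p) := by
  rw [isHomZ_iff_coeff] at h
  ext m
  rw [coeff_C]
  split_ifs with h0
  · rw [← h0]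
  · by_contra h1
    have := h m h1
    have h2 : m.degree = 0 := by exact_mod_cast this
    rw [Finsupp.degree_eq_zero_iff] at h2
    exact h0 h2.symm

end

end Vale.Agent.P292
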