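import Mathlib

/-!
# P292, step 3: trivial inertia and stability under the Hamiltonian derivations

Part 1: extension of the chart formula from `R` to integral elements.
Part 2: primes over a prime, contained in a given prime (Galois case, elementary).
Part 3: the 1-jet argument: trivial inertia.
Part 4: an element `θ` with `F'(θ)` outside of a prime with trivial inertia, and derivations.
-/

namespace Vale.Agent.P292.Inertia

open Polynomial

/-! ### Part 1 -/

/-- derivative of the value of a polynomial. -/
theorem d_eval₂ {R T : Type*} [CommRing R] [CommRing T] (φ : R →+* T) (c : T)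
    (d : T →+ T) (hd : ∀ x y, d (x * y) = x * d y + y * d x) (f : R[X]) :
    d (f.eval₂ φ c) = f.sum (fun k a => c ^ k * d (φ a)) + f.derivative.eval₂ φ c * d c := by
  have hd1 : d 1 = 0 := by
    have := hd 1 1
    simp only [mul_one, one_mul] at this
    exact left_eq_add.1 this
  have hpow : ∀ n : ℕ, d (c ^ n) = n * c ^ (n - 1) * d c := by
    intro n
    induction n with
    | zero => simp [hd1]
    | succ n ih =>
      rw [pow_succ, hd, ih]
      rcases n with _ | n
      · simp
      · simp only [Nat.add_sub_cancel, Nat.cast_add, Nat.cast_one]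
        ring
  induction f using Polynomial.induction_on' with
  | add p q hp hq =>
    rw [eval₂_add, map_add, hp, hq, derivative_add, eval₂_add,
      sum_add_index p q _ (fun k => by simp) (fun k a b => by simp [mul_add])]
    ring
  | monomial n a =>
    rw [eval₂_monomial, hd, hpow, derivative_monomial, eval₂_monomial,
      sum_monomial_index a (fun k a => c ^ k * d (φ a)) (by simp), map_mul, map_natCast]
    ring

/-- the chart formula extends to integral elements. -/
theorem chart_ext {R S L A ι : Type*} [CommRing R] [CommRing S] [CommRing L] [CommRing A]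
    [IsDomain A] [Algebra R S] [Algebra S L] [Algebra R L] [IsScalarTower R S L] [Fintype ι]
    (hSL : Function.Injective (algebraMap S L))
    (lam : S →+* A)
    (d : A →+ A) (hd : ∀ x y, d (x * y) = x * d y + y * d x)
    (E : ι → L →+ L) (hE : ∀ j x y, E j (x * y) = x * E j y + y * E j x)
    (ER : ι → R → R) (hER : ∀ j r, E j (algebraMap R L r) = algebraMap R L (ER j r))
    (δ : A) (g : ι → A)
    (hchart : ∀ r : R, δ * d (lam (algebraMap R S r)) =
      ∑ j, g j * lam (algebraMap R S (ER j r)))
    {c : S} (f : R[X]) (hf : aeval c f = 0) (hne : lam (aeval c (derivative f)) ≠ 0)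
    (e : ι → S) (he : ∀ j, E j (algebraMap S L c) = algebraMap S L (e j)) :
    δ * d (lam c) = ∑ j, g j * lam (e j) := by
  classical
  -- the equation in `A`
  have h1 : f.sum (fun k a => lam c ^ k * d (lam (algebraMap R S a))) +
      lam (aeval c (derivative f)) * d (lam c) = 0 := by
    have := d_eval₂ (lam.comp (algebraMap R S)) (lam c) d hd f
    have e1 : f.eval₂ (lam.comp (algebraMap R S)) (lam c) = lam (aeval c f) := by
      rw [aeval_def, hom_eval₂]
    have e2 : (derivative f).eval₂ (lam.comp (algebraMap R S)) (lam c) =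
        lam (aeval c (derivative f)) := by
      rw [aeval_def, hom_eval₂]
    rw [e1, e2, hf, map_zero, map_zero] at this
    simpa using this.symm
  -- the equations in `S`
  have h2 : ∀ j, f.sum (fun k a => c ^ k * algebraMap R S (ER j a)) +
      aeval c (derivative f) * e j = 0 := by
    intro j
    apply hSL
    have := d_eval₂ (algebraMap R L) (algebraMap S L c) (E j) (hE j) f
    have e1 : f.eval₂ (algebraMap R L) (algebraMap S L c) = algebraMap S L (aeval c f) := by
      rw [aeval_def, hom_eval₂, IsScalarTower.algebraMap_eq R S L]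
    have e2 : (derivative f).eval₂ (algebraMap R L) (algebraMap S L c) =
        algebraMap S L (aeval c (derivative f)) := by
      rw [aeval_def, hom_eval₂, IsScalarTower.algebraMap_eq R S L]
    rw [e1, e2, hf, map_zero, map_zero, he] at this
    rw [map_add, map_mul, map_zero, this, Polynomial.sum_def, Polynomial.sum_def, map_sum]
    congr 1
    refine Finset.sum_congr rfl fun k _ => ?_
    rw [map_mul, map_pow, hER, ← IsScalarTower.algebraMap_apply R S L]
  have h3 : ∀ j, f.sum (fun k a => lam c ^ k * lam (algebraMap R S (ER j a))) =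
      - (lam (aeval c (derivative f)) * lam (e j)) := by
    intro j
    have := congrArg lam (h2 j)
    rw [map_add, map_mul, map_zero, Polynomial.sum_def, map_sum] at this
    rw [eq_neg_iff_add_eq_zero, ← this, Polynomial.sum_def]
    congr 1
    refine Finset.sum_congr rfl fun k _ => ?_
    rw [map_mul, map_pow]
  apply mul_left_cancel₀ hne
  have h4 : δ * f.sum (fun k a => lam c ^ k * d (lam (algebraMap R S a))) =
      ∑ j, g j * f.sum (fun k a => lam c ^ k * lam (algebraMap R S (ER j a))) := by
    simp only [Polynomial.sum_def, Finset.mul_sum]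
    rw [Finset.sum_comm]
    refine Finset.sum_congr rfl fun k _ => ?_
    calc δ * (lam c ^ k * d (lam (algebraMap R S (f.coeff k))))
        = lam c ^ k * (δ * d (lam (algebraMap R S (f.coeff k)))) := by ring
      _ = ∑ j, g j * (lam c ^ k * lam (algebraMap R S (ER j (f.coeff k)))) := by
          rw [hchart, Finset.mul_sum]
          exact Finset.sum_congr rfl fun j _ => by ring
  have h5 : ∑ j, g j * f.sum (fun k a => lam c ^ k * lam (algebraMap R S (ER j a))) =
      - ∑ j, lam (aeval c (derivative f)) * (g j * lam (e j)) := by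
    rw [← Finset.sum_neg_distrib]
    refine Finset.sum_congr rfl fun j _ => ?_
    rw [h3]
    ring
  rw [Finset.mul_sum]
  have h6 := congrArg (fun z => δ * z) h1
  simp only [mul_add, mul_zero] at h6
  rw [h4, h5] at h6
  linear_combination h6

/-- an annihilating polynomial with nonvanishing derivative. -/
theorem exists_sep {R S : Type*} [CommRing R] [IsDomain R] [IsIntegrallyClosed R] [CommRing S]
    [IsDomain S] [Algebra R S] [Module.IsTorsionFree R S] [CharZero R] {c : S}
    (hc : IsIntegral R c) :
    ∃ f : R[X], aeval c f = 0 ∧ aeval c (derivative f) ≠ 0 := by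
  refine ⟨minpoly R c, minpoly.aeval R c, fun h => ?_⟩
  have hpos : 0 < (minpoly R c).natDegree := minpoly.natDegree_pos hc
  have hne : derivative (minpoly R c) ≠ 0 := by
    intro h0
    have := derivative_eq_zero.1 h0
    omega
  have h1 := minpoly.IsIntegrallyClosed.degree_le_of_ne_zero (s := c) hne h
  exact absurd (degree_derivative_lt (minpoly.ne_zero hc)) (not_lt.2 h1)

/-! ### Part 2 -/

/-- going down in the Galois case. -/
theorem exists_smul_le {R S G : Type*} [CommRing R] [CommRing S] [Algebra R S] [Group G]
    [Finite G] [MulSemiringAction G S] [Algebra.IsInvariant R S G] (P Q : Ideal S)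
    [Q.IsPrime]
    (h : ∀ r : R, algebraMap R S r ∈ P → algebraMap R S r ∈ Q) :
    ∃ g : G, ∀ x ∈ P, g • x ∈ Q := by
  classical
  have := Fintype.ofFinite G
  by_contra hcon
  push Not at hcon
  have h1 : ¬ ((P : Set S) ⊆ ⋃ g ∈ ((Finset.univ : Finset G) : Set G),
      ((Q.comap (MulSemiringAction.toRingHom G S g) : Ideal S) : Set S)) := by
    rw [Ideal.subset_union_prime (1 : G) (1 : G) (fun g _ _ _ => inferInstance)]
    rintro ⟨g, -, hg⟩
    obtain ⟨x, hxP, hxQ⟩ := hcon g
    exact hxQ (hg hxP)
  obtain ⟨x, hxP, hx⟩ := Set.not_subset.1 h1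
  simp only [Finset.coe_univ, Set.mem_univ, Set.iUnion_true, Set.mem_iUnion, not_exists] at hx
  obtain ⟨a, ha⟩ := Algebra.IsInvariant.isInvariant (A := R) (G := G) (∏ g : G, g • x) (by
    intro g
    rw [Finset.smul_prod']
    refine Fintype.prod_equiv (Equiv.mulLeft g) _ _ fun y => ?_
    rw [smul_smul]
    rfl)
  have haP : algebraMap R S a ∈ P := by
    rw [ha, ← Finset.mul_prod_erase Finset.univ (fun g : G => g • x) (Finset.mem_univ 1),
      one_smul]
    exact P.mul_mem_right _ hxP
  have haQ := h a haP
  rw [ha] at haQ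
  obtain ⟨g, -, hg⟩ := (Ideal.IsPrime.prod_mem_iff (p := Q)).1 haQ
  exact hx g hg

/-! ### Part 3 -/

universe u v w

/-- A curve meeting the zero set of `p`, along which the elements of `B` are determined by their
1-jet at the point of intersection: `A` is the ring of polynomials in the two coordinates, `d k`
the derivatives with respect to the coordinates, `q` the ideal of the point, `δ` and `g` the chart
formula. -/
structure JetLine {R : Type*} {S : Type*} [CommRing R] [CommRing S] [Algebra R S]
    {ι : Type*} (ER : ι → R → R) (B : Set S) (p : Ideal R) where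
  A : Type u
  [ring : CommRing A]
  [dom : IsDomain A]
  lam : S →+* A
  root : ∀ b ∈ B, ∃ f : R[X], aeval b f = 0 ∧ lam (aeval b (derivative f)) ≠ 0
  κ : Type
  d : κ → A →+ A
  leib : ∀ k x y, d k (x * y) = x * d k y + y * d k x
  q : Ideal A
  [prime : q.IsPrime]
  mem_q : ∀ r ∈ p, lam (algebraMap R S r) ∈ q
  δ : A
  hδ : δ ∉ q
  N : ℕ
  y : Fin N → ι
  g : κ → Fin N → A
  chart : ∀ k, ∀ r : R, δ * d k (lam (algebraMap R S r)) =
      ∑ j, g k j * lam (algebraMap R S (ER (y j) r))
  jet : ∀ b ∈ B, ∀ b' ∈ B, (∀ k, d k (lam b - lam b') ∈ q) → b = b'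

attribute [instance] JetLine.ring JetLine.dom JetLine.prime

/-- an element of the inertia group of a prime over `p` fixes all elements of `B`. -/
theorem inertia_fix {R S L ι G : Type*} [CommRing R] [CommRing S] [CommRing L] [Algebra R S]
    [Algebra S L] [Algebra R L] [IsScalarTower R S L]
    [Group G] [Finite G] [MulSemiringAction G S] [MulSemiringAction G L]
    [Algebra.IsInvariant R S G]
    (hSL : Function.Injective (algebraMap S L))
    (hG : ∀ (g : G) (x : S), algebraMap S L (g • x) = g • algebraMap S L x)
    (E : ι → L →+ L) (hE : ∀ j x y, E j (x * y) = x * E j y + y * E j x)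
    (hEG : ∀ j (g : G) x, E j (g • x) = g • E j x)
    (ER : ι → R → R) (hER : ∀ j r, E j (algebraMap R L r) = algebraMap R L (ER j r))
    {B : Set S} (hB : ∀ (g : G), ∀ b ∈ B, g • b ∈ B)
    (hBE : ∀ b ∈ B, ∀ j, ∃ e : S, E j (algebraMap S L b) = algebraMap S L e)
    (P : Ideal S) {p : Ideal R} (hp : ∀ r : R, algebraMap R S r ∈ P → r ∈ p)
    (J : JetLine.{u} ER B p) (σ : G) (hσ : ∀ x : S, σ • x - x ∈ P) (b : S) (hb : b ∈ B) :
    σ • b = b := by
  classical
  obtain ⟨τ, hτ⟩ := exists_smul_le (R := R) (G := G) P (J.q.comap J.lam)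
    (fun r hr => J.mem_q r (hp r hr))
  choose e he using hBE b hb
  have hchart : ∀ (b' : S) (hb' : b' ∈ B) (e' : ι → S)
      (_ : ∀ j, E j (algebraMap S L b') = algebraMap S L (e' j)) (k : J.κ),
      J.δ * J.d k (J.lam b') = ∑ j, J.g k j * J.lam (e' (J.y j)) := by
    intro b' hb' e' he' k
    obtain ⟨f, hf, hf'⟩ := J.root b' hb'
    exact chart_ext hSL J.lam (J.d k) (J.leib k) (fun j => E (J.y j)) (fun j => hE (J.y j))
      (fun j => ER (J.y j)) (fun j => hER (J.y j)) J.δ (J.g k) (J.chart k)
      f hf hf' (fun j => e' (J.y j)) (fun j => he' (J.y j))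
  have key : τ • σ • b = τ • b := by
    refine J.jet _ (hB _ _ (hB _ _ hb)) _ (hB _ _ hb) fun k => ?_
    have h1 := hchart (τ • σ • b) (hB _ _ (hB _ _ hb)) (fun j => τ • σ • e j) (fun j => by
      rw [hG, hG, hEG, hEG, he, hG, hG]) k
    have h2 := hchart (τ • b) (hB _ _ hb) (fun j => τ • e j) (fun j => by
      rw [hG, hEG, he, hG]) k
    have h3 : J.δ * J.d k (J.lam (τ • σ • b) - J.lam (τ • b)) ∈ J.q := by
      have h4 : J.δ * J.d k (J.lam (τ • σ • b) - J.lam (τ • b)) =
          ∑ j, J.g k j * J.lam (τ • (σ • e (J.y j) - e (J.y j))) := by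
        rw [map_sub, mul_sub, h1, h2, ← Finset.sum_sub_distrib]
        refine Finset.sum_congr rfl fun j _ => ?_
        rw [smul_sub, map_sub]
        ring
      rw [h4]
      refine J.q.sum_mem fun j _ => J.q.mul_mem_left _ ?_
      exact hτ _ (hσ _)
    exact (J.prime.mem_or_mem h3).resolve_left J.hδ
  exact smul_left_cancel τ key

end Vale.Agent.P292.Inertia
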