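import Vale.Agent.P292.Bdl.B5
import Vale.Agent.P292.Bdl.B4
import Vale.Agent.P292.Bdl.B3
import Vale.Agent.P292.LS.Frame
import Vale.Agent.P292.LS.Curve
import Vale.Agent.P292.LS.Inertia

/-! Along a line (or a conic, or any curve) an integral function of the right degree with
integral brackets is a linear form. -/

namespace Vale.Agent.P292

open Module Polynomial

universe u v w

variable {R : Type u} [CommRing R] [Algebra ℂ R] {𝒜 : ℕ → Submodule ℂ R} [GradedAlgebra 𝒜]
  {P : R →ₗ[ℂ] R →ₗ[ℂ] R}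

/-- There is a chart at every point of a curve. -/
theorem IsCurve.exists_isChart (hX : IsContactFano 𝒜 P) {d : ℕ} {E : Type v} [Field E]
    [Algebra ℂ E] {ψ : R →ₐ[ℂ] MvPolynomial (Fin 2) E} (hψ : IsCurve 𝒜 d ψ) (x : Fin 2 → E)
    (hx : x ≠ 0) :
    ∃ (N : ℕ) (y : Fin N → R) (δ : R), MvPolynomial.aeval x (ψ δ) ≠ 0 ∧ IsChart P y δ := by
  obtain ⟨k, hk, r, hr, hxr⟩ := hψ.bpf x hx
  have hft : Algebra.FiniteType ℂ R := hX.finiteType
  let z : R →ₐ[ℂ] E :=
    ((MvPolynomial.aeval x : MvPolynomial (Fin 2) E →ₐ[E] E).restrictScalars ℂ).comp ψ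
  obtain ⟨p, hp, hpr⟩ := exists_closed_point z r hxr
  obtain ⟨N, y, δ, hδ, hc⟩ := exists_isChart_at hX (p := p) (fun hv => hpr (hv k hk r hr))
  exact ⟨N, y, δ, fun h => hδ (hp _ h), hc⟩

/-- The charts cover the curve. -/
theorem IsCurve.pow_mem_span (hX : IsContactFano 𝒜 P) {d : ℕ} {E : Type v} [Field E]
    [IsAlgClosed E] [Algebra ℂ E] {ψ : R →ₐ[ℂ] MvPolynomial (Fin 2) E} (hψ : IsCurve 𝒜 d ψ) :
    ∃ N : ℕ, ∀ i, (MvPolynomial.X i : MvPolynomial (Fin 2) E) ^ N ∈
      Ideal.span {g | ∃ (n : ℕ) (y : Fin n → R) (δ : R), IsChart P y δ ∧ g = ψ δ} := by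
  have hrad : ∀ i, (MvPolynomial.X i : MvPolynomial (Fin 2) E) ∈
      (Ideal.span {g | ∃ (n : ℕ) (y : Fin n → R) (δ : R), IsChart P y δ ∧ g = ψ δ}).radical := by
    intro i
    rw [← MvPolynomial.vanishingIdeal_zeroLocus_eq_radical (K := E)]
    rw [MvPolynomial.mem_vanishingIdeal_iff]
    intro u hu
    rw [MvPolynomial.mem_zeroLocus_iff] at hu
    rw [MvPolynomial.aeval_X]
    by_contra hui
    have hu0 : u ≠ 0 := fun h => hui (by rw [h]; rfl)
    obtain ⟨n, y, δ, hδ, hc⟩ := hψ.exists_isChart hX u hu0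
    exact hδ (hu _ (Ideal.subset_span ⟨n, y, δ, hc, rfl⟩))
  choose N hN using hrad
  refine ⟨∑ i, N i, fun i => ?_⟩
  have h1 : N i ≤ ∑ i, N i := Finset.single_le_sum (fun _ _ => Nat.zero_le _) (Finset.mem_univ i)
  exact Ideal.pow_mem_of_pow_mem _ (hN i) h1

section linear

variable {E : Type v} [Field E] [Algebra ℂ E] {Ω : Type v} [Field Ω] [Algebra E Ω]
  [Algebra ℂ Ω] [IsScalarTower ℂ E Ω] {M : Type w} [Field M] [Algebra R M]

omit [IsScalarTower ℂ E Ω] in
/-- The chart formula on an algebraic extension. -/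
theorem IsChart.formula_ext [FaithfulSMul R M] [Algebra.IsAlgebraic R M] {N : ℕ} {y : Fin N → R}
    {δ : R} (h : IsChart P y δ) (ψ : R →ₐ[ℂ] MvPolynomial (Fin 2) E)
    (ι : MvPolynomial (Fin 2) E →ₐ[E] Ω) (D : Derivation E Ω Ω) (j : Fin 2)
    (hD : ∀ p, D (ι p) = ι (MvPolynomial.pderiv j p)) (Λ : M →+* Ω)
    (hΛ : ∀ r, Λ (algebraMap R M r) = ι (ψ r)) (Dr : R → M → M)
    (hadd : ∀ r x y, Dr r (x + y) = Dr r x + Dr r y)
    (hmul : ∀ r x y, Dr r (x * y) = Dr r x * y + x * Dr r y)
    (hext : ∀ r s, Dr r (algebraMap R M s) = algebraMap R M (P r s)) :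
    ∃ g : Fin N → MvPolynomial (Fin 2) E,
      (∀ r, ψ δ * MvPolynomial.pderiv j (ψ r) = ∑ k, g k * ψ (P (y k) r)) ∧
      ∀ z : M, ι (ψ δ) * D (Λ z) = ∑ k, ι (g k) * Λ (Dr (y k) z) := by
  have hchar : CharZero Ω := charZero_of_injective_algebraMap (algebraMap ℂ Ω).injective
  obtain ⟨g, hg⟩ := h.formula ψ (((MvPolynomial.pderiv j : Derivation E _ _) :
      MvPolynomial (Fin 2) E →ₗ[E] MvPolynomial (Fin 2) E).restrictScalars ℂ ∘ₗ ψ.toLinearMap)
    (fun a b => by
      change MvPolynomial.pderiv j (ψ (a * b)) = ψ a * MvPolynomial.pderiv j (ψ b) +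
        ψ b * MvPolynomial.pderiv j (ψ a)
      rw [map_mul, Derivation.leibniz, smul_eq_mul, smul_eq_mul])
  have hg' : ∀ r, ψ δ * MvPolynomial.pderiv j (ψ r) = ∑ k, g k * ψ (P (y k) r) := hg
  refine ⟨g, hg', fun z => ?_⟩
  have hDm : ∀ p q, D (p * q) = p * D q + q * D p := by
    intro p q
    rw [Derivation.leibniz, smul_eq_mul, smul_eq_mul]
  let V : M →+ Ω :=
    { toFun := fun z => ι (ψ δ) * D (Λ z) - ∑ k, ι (g k) * Λ (Dr (y k) z)
      map_zero' := by
        have h0 : ∀ k, Dr (y k) 0 = 0 := fun k => by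
          have h1 := hadd (y k) 0 0
          rw [add_zero] at h1
          exact left_eq_add.1 h1
        simp [h0]
      map_add' := fun a b => by
        simp only [map_add, hadd, mul_add, Finset.sum_add_distrib]
        ring }
  have hV0 : ∀ z, V z = ι (ψ δ) * D (Λ z) - ∑ k, ι (g k) * Λ (Dr (y k) z) := fun _ => rfl
  have hV : ∀ p q, V (p * q) = Λ p * V q + Λ q * V p := by
    intro p q
    rw [hV0, hV0, hV0, map_mul, hDm]
    simp only [hmul, map_add, map_mul, mul_add, Finset.sum_add_distrib, mul_sub, Finset.mul_sum]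
    have e1 : ∑ k, ι (g k) * (Λ (Dr (y k) p) * Λ q) = ∑ k, Λ q * (ι (g k) * Λ (Dr (y k) p)) :=
      Finset.sum_congr rfl fun k _ => by ring
    have e2 : ∑ k, ι (g k) * (Λ p * Λ (Dr (y k) q)) = ∑ k, Λ p * (ι (g k) * Λ (Dr (y k) q)) :=
      Finset.sum_congr rfl fun k _ => by ring
    rw [e1, e2]
    ring
  have hVR : ∀ r : R, V (algebraMap R M r) = 0 := by
    intro r
    rw [hV0, hΛ, hD, ← map_mul, hg', map_sum, sub_eq_zero]
    refine Finset.sum_congr rfl fun k _ => ?_
    rw [hext, hΛ, map_mul]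
  have := derivation_eq_zero_of_isAlgebraic (A := R) Λ Λ.injective V hV hVR
    (FaithfulSMul.algebraMap_injective R M) (Algebra.IsAlgebraic.isAlgebraic z)
  rw [hV0, sub_eq_zero] at this
  exact this

omit [Algebra ℂ Ω] [IsScalarTower ℂ E Ω] in
/-- An element of `Ω` which is integral over the polynomials on every chart is integral. -/
theorem IsCurve.isIntegral_of_isChart (hX : IsContactFano 𝒜 P) [IsAlgClosed E] {d : ℕ}
    {ψ : R →ₐ[ℂ] MvPolynomial (Fin 2) E} (hψ : IsCurve 𝒜 d ψ)
    (ι : MvPolynomial (Fin 2) E →ₐ[E] Ω) (hι : Function.Injective ι) (z : Ω)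
    (h1 : ∀ (n : ℕ) (y : Fin n → R) (δ : R), IsChart P y δ →
      IsIntegral (Algebra.adjoin E (Set.range fun i => ι (MvPolynomial.X i))) (ι (ψ δ) * z)) :
    IsIntegral (Algebra.adjoin E (Set.range fun i => ι (MvPolynomial.X i))) z := by
  let u : Fin 2 → Ω := fun i => ι (MvPolynomial.X i)
  change IsIntegral (Algebra.adjoin E (Set.range u)) z
  set A := Algebra.adjoin E (Set.range u) with hA
  have hιA : ∀ p, ι p ∈ A := li9_range ι
  obtain ⟨N, hN⟩ := hψ.pow_mem_span hX
  have h2 : ∀ g ∈ Ideal.span {g | ∃ (n : ℕ) (y : Fin n → R) (δ : R),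
      IsChart P y δ ∧ g = ψ δ}, IsIntegral A (ι g * z) := by
    intro g hg
    refine Submodule.span_induction (p := fun g _ => IsIntegral A (ι g * z)) ?_ ?_ ?_ ?_ hg
    · rintro _ ⟨n, y, δ, hc, rfl⟩
      exact h1 n y δ hc
    · rw [map_zero, zero_mul]
      exact isIntegral_zero
    · intro g g' _ _ h h'
      rw [map_add, add_mul]
      exact h.add h'
    · intro c g _ h
      rw [smul_eq_mul, map_mul, mul_assoc]
      exact (li9_isIntegral_of_mem A (hιA c)).mul h
  have h3 : ∀ i, IsIntegral A (u i ^ N * z) := by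
    intro i
    have := h2 _ (hN i)
    rwa [map_pow] at this
  have hu : AlgebraicIndependent E u := by
    rw [algebraicIndependent_iff_injective_aeval]
    have h1 : ι = MvPolynomial.aeval u :=
      MvPolynomial.algHom_ext fun i => by rw [MvPolynomial.aeval_X]
    rw [← h1]
    exact hι
  exact isIntegral_of_pow_mul u hu (i := 0) (j := 1) (by decide) N (h3 0) (h3 1)

omit [Algebra ℂ E] [IsScalarTower ℂ E Ω] in
/-- An element of degree one of `Ω` all of whose derivatives are integral over the polynomials is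
a linear form. -/
theorem exists_linear_form [IsAlgClosed E]
    (ι : MvPolynomial (Fin 2) E →ₐ[E] Ω) (D : Fin 2 → Derivation E Ω Ω)
    (hD : ∀ j p, D j (ι p) = ι (MvPolynomial.pderiv j p))
    (huniq : ∀ d : Derivation E Ω Ω, (∀ i, d (ι (MvPolynomial.X i)) = 0) → ∀ f, d f = 0)
    (ρ : Ω) (h4 : ∀ j, IsIntegral
      (Algebra.adjoin E (Set.range fun i => ι (MvPolynomial.X i))) (D j ρ))
    (hEρ : ι (MvPolynomial.X 0) * D 0 ρ + ι (MvPolynomial.X 1) * D 1 ρ = ρ) :
    ∃ q : MvPolynomial (Fin 2) E, q.IsHomogeneous 1 ∧ ι q = ρ := by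
  have hchar : CharZero Ω := charZero_of_injective_algebraMap (algebraMap ℂ Ω).injective
  let u : Fin 2 → Ω := fun i => ι (MvPolynomial.X i)
  -- the Euler derivation
  let EE : Derivation E Ω Ω := u 0 • D 0 + u 1 • D 1
  have hE : ∀ z, EE z = u 0 * D 0 z + u 1 * D 1 z := fun z => rfl
  have hDu : ∀ i j, D j (u i) = if i = j then 1 else 0 := by
    intro i j
    rw [hD, MvPolynomial.pderiv_X, Pi.single_apply]
    by_cases hij : i = j
    · rw [if_pos hij, if_pos hij, map_one]
    · rw [if_neg hij, if_neg hij, map_zero]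
  have hEu : ∀ i, EE (u i) = u i := by
    intro i
    rw [hE, hDu, hDu]
    fin_cases i <;> simp
  have hcomm : ∀ j z, EE (D j z) = D j (EE z) - D j z := by
    intro j z
    have h5 := huniq (⁅EE, D j⁆ + D j) (fun i => by
      change ⁅EE, D j⁆ (u i) + D j (u i) = 0
      rw [Derivation.commutator_apply, hEu, hDu]
      by_cases hij : i = j
      · rw [if_pos hij, Derivation.map_one_eq_zero]
        ring
      · rw [if_neg hij, map_zero]
        ring) z
    have h6 : ⁅EE, D j⁆ z + D j z = 0 := h5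
    rw [Derivation.commutator_apply] at h6
    linear_combination h6
  have hEρ' : EE ρ = ρ := hEρ
  have h6 : ∀ j, ∃ c : E, algebraMap E Ω c = D j ρ := by
    intro j
    have h7 : IsAlgebraic E (D j ρ) :=
      isAlgebraic_of_isIntegral_of_zero u EE hEu (h4 j) (by rw [hcomm, hEρ', sub_self])
    exact minpoly.mem_range_of_degree_eq_one E _
      (IsAlgClosed.degree_eq_one_of_irreducible E (minpoly.irreducible h7.isIntegral))
  choose c hc using h6
  refine ⟨MvPolynomial.C (c 0) * MvPolynomial.X 0 + MvPolynomial.C (c 1) * MvPolynomial.X 1,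
    (MvPolynomial.isHomogeneous_C_mul_X _ _).add (MvPolynomial.isHomogeneous_C_mul_X _ _), ?_⟩
  rw [map_add, map_mul, map_mul, ← hEρ', hE, ← hc, ← hc]
  have h7 : ∀ c : E, ι (MvPolynomial.C c) = algebraMap E Ω c := fun c => ι.commutes c
  rw [h7, h7]
  change algebraMap E Ω (c 0) * u 0 + algebraMap E Ω (c 1) * u 1 = _
  ring

omit [Algebra ℂ E] [Algebra ℂ Ω] [IsScalarTower ℂ E Ω] in
/-- The Euler derivation on homogeneous polynomials. -/
theorem euler_homogeneous (ι : MvPolynomial (Fin 2) E →ₐ[E] Ω) (D : Fin 2 → Derivation E Ω Ω)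
    (hD : ∀ j p, D j (ι p) = ι (MvPolynomial.pderiv j p)) {k : ℕ} {p : MvPolynomial (Fin 2) E}
    (hp : p.IsHomogeneous k) :
    ι (MvPolynomial.X 0) * D 0 (ι p) + ι (MvPolynomial.X 1) * D 1 (ι p) = (k : Ω) * ι p := by
  have h5 := hp.sum_X_mul_pderiv
  rw [Fin.sum_univ_two] at h5
  have h6 := congrArg ι h5
  rw [map_add, map_mul, map_mul, map_nsmul, nsmul_eq_mul] at h6
  rw [hD, hD]
  exact h6

/-- Along a curve of degree `d`, a function of degree `1 / d` with integral brackets is a linear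
form. -/
theorem IsCurve.linear_of_integral (hX : IsContactFano 𝒜 P) [IsAlgClosed E]
    [FaithfulSMul R M] [Algebra.IsAlgebraic R M] {d : ℕ}
    {ψ : R →ₐ[ℂ] MvPolynomial (Fin 2) E} (hψ : IsCurve 𝒜 d ψ)
    (ι : MvPolynomial (Fin 2) E →ₐ[E] Ω)
    (hι : Function.Injective ι) (D : Fin 2 → Derivation E Ω Ω)
    (hD : ∀ j p, D j (ι p) = ι (MvPolynomial.pderiv j p))
    (huniq : ∀ d : Derivation E Ω Ω, (∀ i, d (ι (MvPolynomial.X i)) = 0) → ∀ f, d f = 0)
    (Λ : M →+* Ω) (hΛ : ∀ r, Λ (algebraMap R M r) = ι (ψ r)) (Dr : R → M → M)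
    (hadd : ∀ r x y, Dr r (x + y) = Dr r x + Dr r y)
    (hmul : ∀ r x y, Dr r (x * y) = Dr r x * y + x * Dr r y)
    (hext : ∀ r s, Dr r (algebraMap R M s) = algebraMap R M (P r s))
    (E' : M → M) (hE1 : ∀ x y, E' (x + y) = E' x + E' y)
    (hE2 : ∀ x y, E' (x * y) = E' x * y + x * E' y)
    (hE3 : ∀ r, E' (algebraMap R M r) = algebraMap R M (euler 𝒜 r))
    (x : M) (hx : ∀ r, IsIntegral R (Dr r x)) (hEx : (d : M) * E' x = x) :
    ∃ q : MvPolynomial (Fin 2) E, q.IsHomogeneous 1 ∧ ι q = Λ x := by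
  have hchar : CharZero Ω := charZero_of_injective_algebraMap (algebraMap ℂ Ω).injective
  let u : Fin 2 → Ω := fun i => ι (MvPolynomial.X i)
  have hint : ∀ z : M, IsIntegral R z → IsIntegral (Algebra.adjoin E (Set.range u)) (Λ z) := by
    intro z hz
    let g : R →+* Algebra.adjoin E (Set.range u) :=
      { toFun := fun r => ⟨ι (ψ r), li9_range ι _⟩
        map_one' := by ext; simp
        map_mul' := fun a b => by ext; simp
        map_zero' := by ext; simp
        map_add' := fun a b => by ext; simp }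
    exact IsIntegral.map_of_comp_eq g Λ (by
      ext r
      exact (hΛ r).symm) hz
  let EE : Derivation E Ω Ω := u 0 • D 0 + u 1 • D 1
  have hE : ∀ z, EE z = u 0 * D 0 z + u 1 * D 1 z := fun z => rfl
  have hEm : ∀ p q, EE (p * q) = p * EE q + q * EE p := by
    intro p q
    rw [Derivation.leibniz, smul_eq_mul, smul_eq_mul]
  -- the Euler derivation on `M`
  have hEΛ : ∀ z, EE (Λ z) = (d : Ω) * Λ (E' z) := by
    intro z
    let V : M →+ Ω :=
      { toFun := fun z => EE (Λ z) - (d : Ω) * Λ (E' z)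
        map_zero' := by
          have h0 : E' 0 = 0 := by
            have h1 := hE1 0 0
            rw [add_zero] at h1
            exact left_eq_add.1 h1
          simp [h0]
        map_add' := fun a b => by
          simp only [map_add, hE1, mul_add]
          ring }
    have hV0 : ∀ z, V z = EE (Λ z) - (d : Ω) * Λ (E' z) := fun _ => rfl
    have hV : ∀ p q, V (p * q) = Λ p * V q + Λ q * V p := by
      intro p q
      rw [hV0, hV0, hV0, map_mul, hEm, hE2, map_add, map_mul, map_mul]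
      ring
    have hVR : ∀ r : R, V (algebraMap R M r) = 0 := by
      intro r
      have key : ((EE : Ω →ₗ[E] Ω).restrictScalars ℂ ∘ₗ (ι.restrictScalars ℂ).toLinearMap ∘ₗ
          ψ.toLinearMap) r = ((LinearMap.mulLeft ℂ (d : Ω)) ∘ₗ
            (ι.restrictScalars ℂ).toLinearMap ∘ₗ ψ.toLinearMap ∘ₗ euler 𝒜) r := by
        refine forall_of_homogeneous' (𝒜 := 𝒜) _ _ (fun k s hs => ?_) r
        change ι (MvPolynomial.X 0) * D 0 (ι (ψ s)) + ι (MvPolynomial.X 1) * D 1 (ι (ψ s)) =
          (d : Ω) * ι (ψ (euler 𝒜 s))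
        rw [euler_homogeneous ι D hD (hψ.degree k s hs), euler_apply k s hs, map_smul]
        rw [show ι ((k : ℂ) • ψ s) = (k : Ω) * ι (ψ s) by
          rw [Nat.cast_smul_eq_nsmul, map_nsmul, nsmul_eq_mul]]
        push_cast
        ring
      rw [hV0, hΛ, hE3, hΛ, sub_eq_zero]
      exact key
    have := derivation_eq_zero_of_isAlgebraic (A := R) Λ Λ.injective V hV hVR
      (FaithfulSMul.algebraMap_injective R M) (Algebra.IsAlgebraic.isAlgebraic z)
    rw [hV0, sub_eq_zero] at this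
    exact this
  refine exists_linear_form ι D hD huniq (Λ x) (fun j => ?_) ?_
  · refine hψ.isIntegral_of_isChart hX ι hι _ fun n y δ hc => ?_
    obtain ⟨g, -, hg⟩ := hc.formula_ext ψ ι (D j) j (hD j) Λ hΛ Dr hadd hmul hext
    rw [hg]
    exact IsIntegral.sum _ fun k _ =>
      (li9_isIntegral_of_mem _ (li9_range ι _)).mul (hint _ (hx _))
  · have h1 := hEΛ x
    rw [← map_natCast Λ, ← map_mul, hEx] at h1
    exact h1

omit [Algebra ℂ Ω] [IsScalarTower ℂ E Ω] in
/-- A homomorphism from an extension of `R`, which maps generators of the extension to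
polynomials, maps all integral elements to polynomials. -/
theorem exists_eq_of_isIntegral [IsDomain R] [Algebra (FractionRing R) M]
    [IsScalarTower R (FractionRing R) M] (ψ : R →ₐ[ℂ] MvPolynomial (Fin 2) E)
    (ι : MvPolynomial (Fin 2) E →ₐ[E] Ω) (hι : Function.Injective ι) (Λ : M →+* Ω)
    (hΛ : ∀ r, Λ (algebraMap R M r) = ι (ψ r)) (X : Set M)
    (hX : ∀ x ∈ X, ∃ q, ι q = Λ x) (hgen : Algebra.adjoin (FractionRing R) X = ⊤) (z : M)
    (hz : IsIntegral R z) : ∃ q, ι q = Λ z := by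
  classical
  have hinj : Function.Injective (algebraMap R M) := by
    rw [IsScalarTower.algebraMap_eq R (FractionRing R) M]
    exact (algebraMap (FractionRing R) M).injective.comp
      (IsFractionRing.injective R (FractionRing R))
  have h1 : ∀ z : M, ∃ r : R, r ≠ 0 ∧ ∃ q, ι q = Λ (algebraMap R M r * z) := by
    intro z
    have hz' : z ∈ Algebra.adjoin (FractionRing R) X := by rw [hgen]; trivial
    refine Algebra.adjoin_induction
      (p := fun z _ => ∃ r : R, r ≠ 0 ∧ ∃ q, ι q = Λ (algebraMap R M r * z)) ?_ ?_ ?_ ?_ hz'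
    · intro x hx
      obtain ⟨q, hq⟩ := hX x hx
      exact ⟨1, one_ne_zero, q, by rw [hq, map_one, one_mul]⟩
    · intro c
      obtain ⟨⟨a, b⟩, hab⟩ := IsLocalization.surj (nonZeroDivisors R) c
      simp only at hab
      refine ⟨b, nonZeroDivisors.ne_zero b.2, ψ a, ?_⟩
      rw [← hΛ, IsScalarTower.algebraMap_apply R (FractionRing R) M a, ← hab, map_mul,
        ← IsScalarTower.algebraMap_apply R (FractionRing R) M, mul_comm]
    · rintro x y _ _ ⟨r, hr, q, hq⟩ ⟨r', hr', q', hq'⟩
      refine ⟨r * r', mul_ne_zero hr hr', ψ r' * q + ψ r * q', ?_⟩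
      rw [map_add ι, map_mul ι, map_mul ι, hq, hq', ← hΛ, ← hΛ, ← map_mul, ← map_mul, ← map_add,
        map_mul (algebraMap R M)]
      congr 1
      ring
    · rintro x y _ _ ⟨r, hr, q, hq⟩ ⟨r', hr', q', hq'⟩
      refine ⟨r * r', mul_ne_zero hr hr', q * q', ?_⟩
      rw [map_mul ι, hq, hq', ← map_mul, map_mul (algebraMap R M)]
      congr 1
      ring
  obtain ⟨r, hr, q, hq⟩ := h1 z
  let _ : Algebra (MvPolynomial (Fin 2) E) Ω := ι.toRingHom.toAlgebra
  have hal : ∀ p, algebraMap (MvPolynomial (Fin 2) E) Ω p = ι p := fun _ => rfl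
  let K' := FractionRing (MvPolynomial (Fin 2) E)
  have hinj' : Function.Injective (algebraMap (MvPolynomial (Fin 2) E) Ω) := hι
  let f : K' →ₐ[MvPolynomial (Fin 2) E] Ω := IsFractionRing.liftAlgHom (K := K')
    (g := Algebra.ofId (MvPolynomial (Fin 2) E) Ω) hinj'
  have hf : Function.Injective f := (f : K' →+* Ω).injective
  have hψr : ψ r ≠ 0 := by
    intro h0
    have h2 : Λ (algebraMap R M r) = 0 := by rw [hΛ, h0, map_zero]
    rw [map_eq_zero] at h2
    exact hr (hinj (by rw [h2, map_zero]))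
  have hιr : ι (ψ r) ≠ 0 := fun h => hψr (hι (by rw [h, map_zero]))
  let k : K' := algebraMap _ K' q / algebraMap _ K' (ψ r)
  have hfk : f k = Λ z := by
    have h3 : f k = ι q / ι (ψ r) := by
      rw [map_div₀, f.commutes, f.commutes, hal, hal]
    rw [h3, hq, map_mul, hΛ, mul_div_cancel_left₀ _ hιr]
  have hint : IsIntegral (MvPolynomial (Fin 2) E) (Λ z) :=
    IsIntegral.map_of_comp_eq (ψ : R →+* MvPolynomial (Fin 2) E) Λ (by
      ext r
      exact (hΛ r).symm) hz
  rw [← hfk, isIntegral_algHom_iff f hf, IsIntegrallyClosed.isIntegral_iff] at hint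
  obtain ⟨y, hy⟩ := hint
  refine ⟨y, ?_⟩
  rw [← hfk, ← hy, f.commutes, hal]

end linear

/-- A linear form in two variables. -/
theorem exists_eq_of_isHomogeneous_one {E : Type v} [Field E] {q : MvPolynomial (Fin 2) E}
    (hq : q.IsHomogeneous 1) :
    ∃ c : Fin 2 → E, q = MvPolynomial.C (c 0) * MvPolynomial.X 0 +
      MvPolynomial.C (c 1) * MvPolynomial.X 1 := by
  have h1 : ∀ j, ∃ c, MvPolynomial.pderiv j q = MvPolynomial.C c := by
    intro j
    have h2 : (MvPolynomial.pderiv j q).IsHomogeneous 0 := hq.pderiv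
    exact ⟨_, (MvPolynomial.totalDegree_eq_zero_iff_eq_C.1
      ((MvPolynomial.totalDegree_zero_iff_isHomogeneous _).2 h2))⟩
  choose c hc using h1
  refine ⟨c, ?_⟩
  have h3 := hq.sum_X_mul_pderiv
  rw [Fin.sum_univ_two, hc, hc, one_smul] at h3
  rw [← h3]
  ring

section jet

variable {E : Type v} [Field E] [Algebra ℂ E] [IsAlgClosed E] {M : Type w} [Field M]
  [Algebra R M] [IsDomain R] [Algebra (FractionRing R) M] [IsScalarTower R (FractionRing R) M]
  [Algebra.IsAlgebraic (FractionRing R) M]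

/-- **Lines and conics lift.** Let `M` be an algebraic extension of the field of fractions of
`R`, generated by a set `X` of integral elements of degree `1 / d` whose brackets with the
elements of `R` are integral. An injective curve of degree `d` extends to the integral closure of
`R` in `M`, injectively, and the elements of `X` are linear forms along the curve. -/
theorem IsCurve.exists_lift (hX : IsContactFano 𝒜 P) {d : ℕ}
    {ψ : R →ₐ[ℂ] MvPolynomial (Fin 2) E} (hψ : IsCurve 𝒜 d ψ) (hinj : Function.Injective ψ)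
    (Dr : R → M → M)
    (hadd : ∀ r x y, Dr r (x + y) = Dr r x + Dr r y)
    (hmul : ∀ r x y, Dr r (x * y) = Dr r x * y + x * Dr r y)
    (hext : ∀ r s, Dr r (algebraMap R M s) = algebraMap R M (P r s))
    (E' : M → M) (hE1 : ∀ x y, E' (x + y) = E' x + E' y)
    (hE2 : ∀ x y, E' (x * y) = E' x * y + x * E' y)
    (hE3 : ∀ r, E' (algebraMap R M r) = algebraMap R M (euler 𝒜 r)) (X : Set M)
    (hXD : ∀ x ∈ X, ∀ r, IsIntegral R (Dr r x)) (hXE : ∀ x ∈ X, (d : M) * E' x = x)
    (hgen : Algebra.adjoin (FractionRing R) X = ⊤) :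
    ∃ lam : integralClosure R M →+* MvPolynomial (Fin 2) E, Function.Injective lam ∧
      (∀ r, lam (algebraMap R _ r) = ψ r) ∧
      ∀ x : integralClosure R M, (x : M) ∈ X → (lam x).IsHomogeneous 1 := by
  classical
  have hchar : CharZero E := charZero_of_injective_algebraMap (algebraMap ℂ E).injective
  have hRM : Function.Injective (algebraMap R M) := by
    rw [IsScalarTower.algebraMap_eq R (FractionRing R) M]
    exact (algebraMap (FractionRing R) M).injective.comp
      (IsFractionRing.injective R (FractionRing R))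
  have hfs : FaithfulSMul R M := (faithfulSMul_iff_algebraMap_injective R M).2 hRM
  have halg : Algebra.IsAlgebraic R M :=
    ⟨fun x => (IsFractionRing.isAlgebraic_iff R (FractionRing R) M).2
      (Algebra.IsAlgebraic.isAlgebraic x)⟩
  obtain ⟨Ω, i1, i2, i3, i4, i5, ι, D, hι, hD, huniq⟩ := li9_exists_Omega E
  let _ : Algebra R Ω := ((ι : MvPolynomial (Fin 2) E →+* Ω).comp
    (ψ : R →+* MvPolynomial (Fin 2) E)).toAlgebra
  have hRΩ : Function.Injective (algebraMap R Ω) := hι.comp hinj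
  have hfs2 : FaithfulSMul R Ω := (faithfulSMul_iff_algebraMap_injective R Ω).2 hRΩ
  let Λ : M →ₐ[R] Ω := IsAlgClosed.lift
  have hΛ : ∀ r, (Λ : M →+* Ω) (algebraMap R M r) = ι (ψ r) := fun r => Λ.commutes r
  have hlin : ∀ x ∈ X, ∃ q : MvPolynomial (Fin 2) E, q.IsHomogeneous 1 ∧ ι q = Λ x :=
    fun x hx => hψ.linear_of_integral hX ι hι D hD huniq (Λ : M →+* Ω) hΛ Dr hadd hmul hext
      E' hE1 hE2 hE3 x (hXD x hx) (hXE x hx)
  have hall : ∀ z : integralClosure R M, ∃ q, ι q = Λ (z : M) := fun z =>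
    exists_eq_of_isIntegral ψ ι hι (Λ : M →+* Ω) hΛ X
      (fun x hx => (hlin x hx).imp fun q hq => hq.2) hgen z z.2
  choose l hl using hall
  let lam : integralClosure R M →+* MvPolynomial (Fin 2) E :=
    { toFun := l
      map_one' := hι (by rw [hl, map_one, OneMemClass.coe_one, map_one])
      map_mul' := fun a b => hι (by rw [hl, map_mul, hl, hl, MulMemClass.coe_mul, map_mul])
      map_zero' := hι (by rw [hl, map_zero, ZeroMemClass.coe_zero, map_zero])
      map_add' := fun a b => hι (by rw [hl, map_add, hl, hl, AddMemClass.coe_add, map_add]) }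
  have hlam : ∀ z, ι (lam z) = Λ (z : M) := hl
  refine ⟨lam, ?_, fun r => ?_, fun x hx => ?_⟩
  · intro a b hab
    have h1 : Λ (a : M) = Λ (b : M) := by rw [← hlam, ← hlam, hab]
    exact Subtype.ext ((Λ : M →+* Ω).injective h1)
  · apply hι
    rw [hlam]
    exact hΛ r
  · obtain ⟨q, hq1, hq2⟩ := hlin _ hx
    have h1 : lam x = q := hι (by rw [hlam, hq2])
    rw [h1]
    exact hq1

/-- A curve through a point, in the form used for inertia groups. -/
theorem IsCurve.exists_jetLine (hX : IsContactFano 𝒜 P) {d : ℕ}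
    {ψ : R →ₐ[ℂ] MvPolynomial (Fin 2) E} (hψ : IsCurve 𝒜 d ψ) (hinj : Function.Injective ψ)
    (Dr : R → M → M)
    (hadd : ∀ r x y, Dr r (x + y) = Dr r x + Dr r y)
    (hmul : ∀ r x y, Dr r (x * y) = Dr r x * y + x * Dr r y)
    (hext : ∀ r s, Dr r (algebraMap R M s) = algebraMap R M (P r s))
    (E' : M → M) (hE1 : ∀ x y, E' (x + y) = E' x + E' y)
    (hE2 : ∀ x y, E' (x * y) = E' x * y + x * E' y)
    (hE3 : ∀ r, E' (algebraMap R M r) = algebraMap R M (euler 𝒜 r)) (X : Set M)
    (hXD : ∀ x ∈ X, ∀ r, IsIntegral R (Dr r x)) (hXE : ∀ x ∈ X, (d : M) * E' x = x)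
    (hgen : Algebra.adjoin (FractionRing R) X = ⊤)
    (x : Fin 2 → E) (hx : x ≠ 0) (p : Ideal R) (hp : ∀ r ∈ p, MvPolynomial.aeval x (ψ r) = 0) :
    Nonempty (Inertia.JetLine.{v} (S := integralClosure R M) (fun r s : R => P r s)
        {b | (b : M) ∈ X} p) := by
  classical
  have hic : IsIntegrallyClosed R := hX.normal
  have hchR : CharZero R := charZero_of_injective_algebraMap (algebraMap ℂ R).injective
  have hRM : Function.Injective (algebraMap R M) := by
    rw [IsScalarTower.algebraMap_eq R (FractionRing R) M]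
    exact (algebraMap (FractionRing R) M).injective.comp
      (IsFractionRing.injective R (FractionRing R))
  have hfs : FaithfulSMul R (integralClosure R M) :=
    (faithfulSMul_iff_algebraMap_injective R _).2 (fun a b hab => hRM (congrArg Subtype.val hab))
  obtain ⟨lam, h1, h2, h3⟩ := hψ.exists_lift hX hinj Dr hadd hmul hext E' hE1 hE2 hE3 X hXD hXE
    hgen
  obtain ⟨N, y, δ, hδ, hc⟩ := hψ.exists_isChart hX x hx
  have hg : ∀ j : Fin 2, ∃ g : Fin N → MvPolynomial (Fin 2) E,
      ∀ r, ψ δ * MvPolynomial.pderiv j (ψ r) = ∑ k, g k * ψ (P (y k) r) := fun j =>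
    hc.formula ψ (((MvPolynomial.pderiv j : Derivation E _ _) :
      MvPolynomial (Fin 2) E →ₗ[E] MvPolynomial (Fin 2) E).restrictScalars ℂ ∘ₗ ψ.toLinearMap)
    (fun a b => by
      change MvPolynomial.pderiv j (ψ (a * b)) = ψ a * MvPolynomial.pderiv j (ψ b) +
        ψ b * MvPolynomial.pderiv j (ψ a)
      rw [map_mul, Derivation.leibniz, smul_eq_mul, smul_eq_mul])
  choose g hg using hg
  let ev : MvPolynomial (Fin 2) E →+* E :=
    ((MvPolynomial.aeval x : MvPolynomial (Fin 2) E →ₐ[E] E) : MvPolynomial (Fin 2) E →+* E)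
  have hprime : (RingHom.ker ev).IsPrime := RingHom.ker_isPrime ev
  refine ⟨{
    A := MvPolynomial (Fin 2) E
    lam := lam
    root := fun b _ => by
      obtain ⟨f, hf, hf'⟩ := Inertia.exists_sep (R := R) (c := b)
        (Algebra.IsIntegral.isIntegral b)
      exact ⟨f, hf, fun h => hf' (h1 (by rw [h, map_zero]))⟩
    κ := Fin 2
    d := fun j => ((MvPolynomial.pderiv j : Derivation E _ _) :
      MvPolynomial (Fin 2) E →ₗ[E] MvPolynomial (Fin 2) E).toAddMonoidHom
    leib := fun j a b => by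
      change MvPolynomial.pderiv j (a * b) = a * MvPolynomial.pderiv j b +
        b * MvPolynomial.pderiv j a
      rw [Derivation.leibniz, smul_eq_mul, smul_eq_mul]
    q := RingHom.ker ev
    mem_q := fun r hr => by
      rw [h2]
      exact hp r hr
    δ := ψ δ
    hδ := hδ
    N := N
    y := y
    g := g
    chart := fun j r => by
      have := hg j r
      simp only [h2]
      exact this
    jet := fun b hb b' hb' hjet => by
      obtain ⟨c, hc⟩ := exists_eq_of_isHomogeneous_one ((h3 b hb).sub (h3 b' hb'))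
      have h4 : ∀ j, c j = 0 := by
        intro j
        have h5 : ev (MvPolynomial.pderiv j (lam b - lam b')) = 0 := hjet j
        rw [hc, map_add, Derivation.leibniz, Derivation.leibniz, MvPolynomial.pderiv_C,
          MvPolynomial.pderiv_C, MvPolynomial.pderiv_X, MvPolynomial.pderiv_X] at h5
        fin_cases j <;> simpa [ev] using h5
      rw [h4, h4] at hc
      apply h1
      rw [← sub_eq_zero, hc]
      simp }⟩

end jet

end Vale.Agent.P292
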